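import Vale.Agent.P155.N924.MetDD
import Vale.Agent.P155.K1.Extract

/-!
# P155, block BD: from the continuum to lattice units (L1, L2, L3)
-/

namespace Vale.Agent.P155.BD

open Complex Metric Set Skel H904 Filter Topology

theorem mem_UU_iff {δ : ℝ} (hδ : 0 < δ) (a : ℂ) (T : Temp) (z : ℂ) :
    z ∈ UU T ↔ a + δ * z ∈ interior (region δ a T.faceSet) := by
  have key : z ∈ region 1 0 T.faceSetᶜ ↔ a + δ * z ∈ region δ a T.faceSetᶜ := by
    have hδ' : (δ : ℂ) ≠ 0 := by exact_mod_cast hδ.ne'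
    unfold region
    simp only [Set.mem_iUnion₂]
    constructor
    · rintro ⟨y, hy, s, t, h1, h2, h3, h4, h⟩
      refine ⟨y, hy, s, t, h1, h2, h3, h4, ?_⟩
      rw [h]
      simp
    · rintro ⟨y, hy, s, t, h1, h2, h3, h4, h⟩
      refine ⟨y, hy, s, t, h1, h2, h3, h4, ?_⟩
      have := mul_left_cancel₀ hδ' (add_left_cancel h)
      rw [this]
      simp
  rw [← UU_compl, ← T211B.compl_interior_region hδ, Set.mem_compl_iff, Set.mem_compl_iff] at key
  exact not_iff_not.1 key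

theorem fits_of_region {δ r : ℝ} (hδ : 0 < δ) {a : ℂ} {T : Temp}
    (h : region δ a T.faceSet ⊆ closedBall 0 r) {R : ℕ} (hR : (r + ‖a‖) / δ ≤ R) :
    Fits T R := by
  intro x hx
  rw [Finset.mem_coe, mem_box_dn, dn_le_iff]
  have h1 : ∀ s t : ℝ, 0 ≤ s → s ≤ 1 → 0 ≤ t → t ≤ 1 →
      δ * |(x.1 : ℝ) + s| ≤ r + ‖a‖ ∧ δ * |(x.2 : ℝ) + t| ≤ r + ‖a‖ := by
    intro s t h1 h2 h3 h4
    have hm : a + δ * (((x.1 : ℝ) + s : ℝ) + ((x.2 : ℝ) + t : ℝ) * Complex.I) ∈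
        region δ a T.faceSet := Set.mem_iUnion₂.2 ⟨x, hx, s, t, h1, h2, h3, h4, rfl⟩
    have h5 := h hm
    rw [mem_closedBall_zero_iff] at h5
    set w : ℂ := δ * (((x.1 : ℝ) + s : ℝ) + ((x.2 : ℝ) + t : ℝ) * Complex.I) with hw
    have h6 : ‖w‖ ≤ r + ‖a‖ := by
      have : w = (a + w) - a := by ring
      rw [this]
      exact (_root_.norm_sub_le _ _).trans (by linarith)
    have e1 : w.re = δ * ((x.1 : ℝ) + s) := by rw [hw]; simp
    have e2 : w.im = δ * ((x.2 : ℝ) + t) := by rw [hw]; simp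
    constructor
    · have := (Complex.abs_re_le_norm w).trans h6
      rwa [e1, abs_mul, abs_of_pos hδ] at this
    · have := (Complex.abs_im_le_norm w).trans h6
      rwa [e2, abs_mul, abs_of_pos hδ] at this
  have h2 : ∀ u : ℝ, δ * |u| ≤ r + ‖a‖ → |u| ≤ R := by
    intro u hu
    refine le_trans ?_ hR
    rw [le_div_iff₀ hδ]
    linarith
  obtain ⟨h3, h4⟩ := h1 0 0 le_rfl zero_le_one le_rfl zero_le_one
  have h3 := h2 _ h3
  have h4 := h2 _ h4
  rw [add_zero] at h3 h4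
  simp only [zero_sub, abs_neg]
  constructor
  · exact_mod_cast h3
  · exact_mod_cast h4

/-- (L1) -/
theorem fits_ev {Ω : Set ℂ} (hb : Bornology.IsBounded Ω) (S : TempApprox Ω) :
    ∃ M : ℝ, 0 < M ∧ ∀ᶠ n in atTop, Fits (S.T n) ⌈M / S.δ n⌉₊ := by
  obtain ⟨r, hr, -, hreg⟩ := K1.region_eventually hb S
  obtain ⟨C, hC⟩ := S.bdd
  refine ⟨r + |C| + 1, by positivity, ?_⟩
  filter_upwards [hreg] with n hn
  refine fits_of_region (S.pos n) hn ?_
  refine le_trans ?_ (Nat.le_ceil _)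
  refine div_le_div_of_nonneg_right ?_ (S.pos n).le
  have := (hC n).trans (le_abs_self C)
  linarith

/-- (L2) -/
theorem dU_le_ev {Ω : Set ℂ} (hne : (frontier Ω).Nonempty) (S : TempApprox Ω) {η : ℝ}
    (hη : 0 < η) : ∀ᶠ n in atTop, ∀ z : ℂ,
      infDist (S.a n + S.δ n * z) (frontier Ω) ≤ η → S.δ n * dU (S.T n) z ≤ 2 * η := by
  filter_upwards [S.haus₂ (η / 2) (by positivity)] with n hn z hz
  have hδ := S.pos n
  have hδ' : (S.δ n : ℂ) ≠ 0 := by exact_mod_cast hδ.ne'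
  obtain ⟨q, hq, hpq⟩ := (Metric.infDist_lt_iff hne).1 (lt_of_le_of_lt hz
    (show η < 3 / 2 * η by linarith))
  obtain ⟨q', hq', hqq⟩ := Metric.mem_thickening_iff.1 (hn hq)
  set z' : ℂ := (q' - S.a n) / S.δ n with hz'
  have e : S.a n + S.δ n * z' = q' := by
    rw [hz', mul_div_cancel₀ _ hδ']
    ring
  have hz'U : z' ∈ (UU (S.T n))ᶜ := by
    intro h
    rw [mem_UU_iff hδ (S.a n), e] at h
    exact hq'.2 h
  have h1 : dU (S.T n) z ≤ dist z z' := Metric.infDist_le_dist_of_mem hz'U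
  have h2 : S.δ n * dist z z' = dist (S.a n + S.δ n * z) q' := by
    rw [← e, dist_eq_norm, dist_eq_norm]
    have : S.a n + (S.δ n : ℂ) * z - (S.a n + S.δ n * z') = (S.δ n : ℂ) * (z - z') := by ring
    rw [this, norm_mul, Complex.norm_real, Real.norm_eq_abs, abs_of_pos hδ]
  have h3 := dist_triangle (S.a n + S.δ n * z) q q'
  have h4 : S.δ n * dU (S.T n) z ≤ S.δ n * dist z z' := by gcongr
  linarith

/-- (L3) -/
theorem dU_ge_ev {Ω : Set ℂ} (hΩ : IsOpen Ω) (S : TempApprox Ω) {z₀ : ℂ} (hz₀ : z₀ ∈ Ω) :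
    ∃ c : ℝ, 0 < c ∧ ∀ᶠ n in atTop, (z₀ - S.a n) / S.δ n ∈ UU (S.T n) ∧
      c / S.δ n ≤ dU (S.T n) ((z₀ - S.a n) / S.δ n) := by
  obtain ⟨r, hr, hrΩ⟩ := Metric.isOpen_iff.1 hΩ z₀ hz₀
  have hsub : closedBall z₀ (r / 2) ⊆ Ω :=
    (closedBall_subset_ball (by linarith)).trans hrΩ
  refine ⟨r / 2, by positivity, ?_⟩
  filter_upwards [S.cara₁ _ hsub (isCompact_closedBall _ _)] with n hn
  have hδ := S.pos n
  have hδ' : (S.δ n : ℂ) ≠ 0 := by exact_mod_cast hδ.ne'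
  set z : ℂ := (z₀ - S.a n) / S.δ n with hz
  have e : S.a n + S.δ n * z = z₀ := by
    rw [hz, mul_div_cancel₀ _ hδ']
    ring
  constructor
  · rw [mem_UU_iff hδ (S.a n), e]
    exact hn (mem_closedBall_self (by positivity))
  · unfold dU
    rw [Metric.le_infDist (UU_compl_ne _)]
    intro w hw
    by_contra hlt
    rw [not_le, lt_div_iff₀ hδ] at hlt
    apply hw
    rw [mem_UU_iff hδ (S.a n)]
    apply hn
    rw [mem_closedBall, dist_eq_norm]
    have : S.a n + (S.δ n : ℂ) * w - z₀ = (S.δ n : ℂ) * (w - z) := by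
      rw [← e]; ring
    rw [this, norm_mul, Complex.norm_real, Real.norm_eq_abs, abs_of_pos hδ, ← dist_eq_norm,
      dist_comm]
    linarith

end Vale.Agent.P155.BD
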