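import Vale.Agent.P155.BD.Props
import Vale.Agent.P155.T211B.Simp

/-!
# P155, block BD: the distance `dd` satisfies `Met` (from Riemann maps and Schwarz–Pick)
-/

namespace Vale.Agent.P155.BD

open Complex Metric Set Skel H904
open scoped ComplexConjugate

theorem mem_sqr1 {w : ℂ} {y : Pt} (h : w ∈ sqr 1 0 y) :
    (y.1 : ℝ) ≤ w.re ∧ w.re ≤ y.1 + 1 ∧ (y.2 : ℝ) ≤ w.im ∧ w.im ≤ y.2 + 1 := by
  obtain ⟨s, t, h1, h2, h3, h4, rfl⟩ := h
  simp
  exact ⟨h1, h2, h3, h4⟩

theorem cf_re (x : Pt) : (cf x).re = x.1 + 1 / 2 := by simp [cf]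
theorem cf_im (x : Pt) : (cf x).im = x.2 + 1 / 2 := by simp [cf]

theorem dist_cf {z y : Pt} {w : ℂ} (h : w ∈ sqr 1 0 y) : (dn z y : ℝ) - 1 / 2 ≤ ‖cf z - w‖ := by
  obtain ⟨h1, h2, h3, h4⟩ := mem_sqr1 h
  have e1 := Complex.abs_re_le_norm (cf z - w)
  have e2 := Complex.abs_im_le_norm (cf z - w)
  rw [Complex.sub_re, cf_re] at e1
  rw [Complex.sub_im, cf_im] at e2
  obtain ⟨-, h | h | h | h⟩ := dn_spec z y
  · have h' : (dn z y : ℝ) = z.1 - y.1 := by exact_mod_cast h
    have := (le_abs_self _).trans e1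
    linarith
  · have h' : (dn z y : ℝ) = y.1 - z.1 := by exact_mod_cast h
    have := (neg_le_abs _).trans e1
    linarith
  · have h' : (dn z y : ℝ) = z.2 - y.2 := by exact_mod_cast h
    have := (le_abs_self _).trans e2
    linarith
  · have h' : (dn z y : ℝ) = y.2 - z.2 := by exact_mod_cast h
    have := (neg_le_abs _).trans e2
    linarith

theorem cf_sub (z y : Pt) : ‖cf z - cf y‖ ≤ 3 / 2 * (dn z y : ℝ) := by
  have h0 : (0 : ℝ) ≤ dn z y := Nat.cast_nonneg _
  obtain ⟨⟨h1, h2, h3, h4⟩, -⟩ := dn_spec z y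
  have a1 : |(cf z - cf y).re| ≤ dn z y := by
    rw [Complex.sub_re, cf_re, cf_re, abs_le]
    have h1' : (z.1 : ℝ) - y.1 ≤ dn z y := by exact_mod_cast h1
    have h2' : (y.1 : ℝ) - z.1 ≤ dn z y := by exact_mod_cast h2
    constructor <;> linarith
  have a2 : |(cf z - cf y).im| ≤ dn z y := by
    rw [Complex.sub_im, cf_im, cf_im, abs_le]
    have h3' : (z.2 : ℝ) - y.2 ≤ dn z y := by exact_mod_cast h3
    have h4' : (y.2 : ℝ) - z.2 ≤ dn z y := by exact_mod_cast h4
    constructor <;> linarith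
  have h5 : ‖cf z - cf y‖ ^ 2 ≤ (3 / 2 * (dn z y : ℝ)) ^ 2 := by
    rw [← Complex.normSq_eq_norm_sq, Complex.normSq_apply]
    have b1 : (cf z - cf y).re * (cf z - cf y).re ≤ (dn z y : ℝ) * dn z y := by
      rw [← abs_mul_abs_self]
      exact mul_le_mul a1 a1 (abs_nonneg _) h0
    have b2 : (cf z - cf y).im * (cf z - cf y).im ≤ (dn z y : ℝ) * dn z y := by
      rw [← abs_mul_abs_self ((cf z - cf y).im)]
      exact mul_le_mul a2 a2 (abs_nonneg _) h0
    nlinarith
  exact le_of_sq_le_sq h5 (by positivity)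
where
  le_of_sq_le_sq {a b : ℝ} (h : a ^ 2 ≤ b ^ 2) (hb : 0 ≤ b) : a ≤ b := by
    nlinarith [abs_le_of_sq_le_sq' h hb]

theorem UU_compl (T : Temp) : (UU T)ᶜ = region 1 0 T.faceSetᶜ :=
  T211B.compl_interior_region one_pos _

theorem UU_compl_ne (T : Temp) : ((UU T)ᶜ).Nonempty := by
  rw [UU_compl]
  obtain ⟨y, hy⟩ := exists_not_mem_of_finite (A1.faceSet_finite T)
  refine ⟨cf y, Set.mem_iUnion₂.2 ⟨y, hy, 1 / 2, 1 / 2, by norm_num, by norm_num, by norm_num,
    by norm_num, ?_⟩⟩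
  simp [cf]

theorem cf_mem {T : Temp} {x : Pt} (hx : x ∈ T.faceSet) : cf x ∈ UU T := by
  by_contra h
  have h' : cf x ∈ (UU T)ᶜ := h
  rw [UU_compl] at h'
  obtain ⟨y, hy, hxy⟩ := Set.mem_iUnion₂.1 h'
  have h1 := dist_cf (z := x) hxy
  rw [sub_self, norm_zero] at h1
  have h2 : dn x y = 0 := by
    have : (dn x y : ℝ) < 1 := by linarith
    have : dn x y < 1 := by exact_mod_cast this
    omega
  obtain ⟨⟨h3, h4, h5, h6⟩, -⟩ := dn_spec x y
  rw [h2] at h3 h4 h5 h6
  have : y = x := Prod.ext (by omega) (by omega)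
  rw [this] at hy
  exact hy hx

/-- the distance of the centre of a face to the complement of the polygon -/
theorem dF_le_dU (T : Temp) (x : Pt) : (dF T.faceSet x : ℝ) - 1 / 2 ≤ dU T (cf x) := by
  unfold dU
  rw [Metric.le_infDist (UU_compl_ne T)]
  intro w hw
  rw [UU_compl] at hw
  obtain ⟨y, hy, hwy⟩ := Set.mem_iUnion₂.1 hw
  rw [dist_eq_norm]
  refine le_trans ?_ (dist_cf (z := x) hwy)
  have : (dF T.faceSet x : ℝ) ≤ dn x y := by exact_mod_cast dF_le hy
  linarith

theorem rmap_spec (hR : RMEX) {T : Temp} {x : Pt} (hx : x ∈ T.faceSet) :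
    ∃ f, RM T f (rmap T) := by
  obtain ⟨f, φ, h, -⟩ := hR T _ (cf_mem hx)
  have h' : ∃ φ : ℂ → ℂ, ∃ f, RM T f φ := ⟨φ, f, h⟩
  unfold rmap
  rw [dif_pos h']
  exact h'.choose_spec

theorem met_dd (hR : RMEX) (hS : SP) : Met dd (Real.log 8) where
  nonneg := by
    intro T x hx y hy
    obtain ⟨f, h⟩ := rmap_spec hR hx
    have h1 := h.maps' _ (cf_mem hx)
    have h2 := h.maps' _ (cf_mem hy)
    rw [mem_ball_zero_iff] at h1 h2
    apply Real.log_nonneg
    have := one_le_HH h1 h2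
    linarith
  symm := by
    intro T x y
    unfold dd
    rw [HH_comm]
  tri := by
    intro T x hx y hy z hz
    obtain ⟨f, h⟩ := rmap_spec hR hx
    have h1 := h.maps' _ (cf_mem hx)
    have h2 := h.maps' _ (cf_mem hy)
    have h3 := h.maps' _ (cf_mem hz)
    rw [mem_ball_zero_iff] at h1 h2 h3
    have a1 := one_le_HH h1 h2
    have a2 := one_le_HH h2 h3
    have a3 := one_le_HH h1 h3
    unfold dd
    rw [← Real.log_mul (by positivity) (by positivity)]
    apply Real.log_le_log (by positivity)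
    have := HH_tri h1 h2 h3
    nlinarith
  near := by
    intro T z hz x hx hzx
    obtain ⟨f, h⟩ := rmap_spec hR hx
    have h1 := h.maps' _ (cf_mem hz)
    have h2 := h.maps' _ (cf_mem hx)
    rw [mem_ball_zero_iff] at h1 h2
    unfold dd
    apply Real.log_le_log
    · have := one_le_HH h1 h2
      linarith
    · have : HH (rmap T (cf z)) (rmap T (cf x)) ≤ 2 := by
        apply hS T f _ h _ (cf_mem hz)
        have h3 := dF_le_dU T z
        have h4 := cf_sub z x
        have h5 : (4 : ℝ) * dn z x ≤ dF T.faceSet z := by exact_mod_cast hzx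
        have h6 : 0 < dF T.faceSet z := dF_pos (exists_not_mem_of_finite (A1.faceSet_finite T)) hz
        have h7 : (1 : ℝ) ≤ dF T.faceSet z := by exact_mod_cast h6
        rcases Nat.eq_zero_or_pos (dn z x) with h0 | h0
        · rw [h0] at h4
          push_cast at h4
          linarith
        · have h8 : (1 : ℝ) ≤ dn z x := by exact_mod_cast h0
          linarith
      linarith

end Vale.Agent.P155.BD
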