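import Vale.Agent.P155.N924.Near
import Vale.Agent.P155.T802.Cap
import Vale.Agent.P155.E.Prob

/-!
# P155, block BD (R3): one loop visits two boxes, from the covariance decay and FAT

`Vis ω L z n`: the loop `L` has an inner face in the box of radius `n` around the face `z`.
-/

namespace Vale.Agent.P155.BD

open Vale.Agent.P155 Finset Skel H904

/-- the face `x` lies inside the loop `L`, next to it -/
def Inn (ω : Conf) (L : Set Pt) (x : Pt) : Prop := surr ω L x ∧ T802.Touch L x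

/-- the loop `L` visits the box of radius `n` around `z` -/
def Vis (ω : Conf) (L : Set Pt) (z : Pt) (n : ℕ) : Prop := ∃ x ∈ box z n, Inn ω L x

/-- size of the box around `z` -/
noncomputable def sz (T : Temp) (z : Pt) : ℕ := dF T.faceSet z / 16

/-- number of loops around both `x` and `y` -/
noncomputable def both (ω : Conf) (x y : Pt) : ℕ :=
  Set.ncard {A | A ∈ Loops ω ∧ surr ω A x ∧ surr ω A y}

open Classical in
/-- number of faces of `S` surrounded by the loop `L` -/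
noncomputable def cnt (ω : Conf) (L : Set Pt) (S : Finset Pt) : ℕ :=
  (S.filter (fun x => surr ω L x)).card

open Classical in
theorem sum_both {V : Finset Pt} {ω : Conf} (hω : ω ∈ DD V) (A B : Finset Pt) :
    ∑ x ∈ A, ∑ y ∈ B, (both ω x y : ℝ) =
      ∑ L ∈ (L.loops_finite hω).toFinset, (cnt ω L A : ℝ) * cnt ω L B := by
  have hfin := L.loops_finite hω
  have hc : ∀ x y, (both ω x y : ℝ) =
      ∑ A ∈ hfin.toFinset, if surr ω A x ∧ surr ω A y then (1 : ℝ) else 0 := by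
    intro x y
    rw [← sum_filter, sum_const, nsmul_eq_mul, mul_one]
    congr 1
    unfold both
    rw [← Set.ncard_coe_finset]
    congr 1
    ext A
    simp
  simp_rw [hc]
  rw [sum_congr rfl (fun x _ => sum_comm), sum_comm]
  apply sum_congr rfl
  intro L _
  unfold cnt
  rw [card_eq_sum_ones, card_eq_sum_ones, sum_filter, sum_filter]
  push_cast
  rw [sum_mul_sum]
  apply sum_congr rfl
  intro x _
  apply sum_congr rfl
  intro y _
  by_cases hx : surr ω L x <;> by_cases hy : surr ω L y <;> simp [hx, hy]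

open Classical in
/-- a loop which surrounds many faces of `A` and many faces of `B` -/
theorem two_box {V : Finset Pt} (A B : Finset Pt) {s t M : ℝ} (hs : 0 < s) (ht : 0 < t)
    (hM : ∀ x ∈ A, ∀ y ∈ B, Ex V (fun ω => (both ω x y : ℝ)) ≤ M) :
    Pr V (fun ω => ∃ L ∈ Loops ω, s ≤ cnt ω L A ∧ t ≤ cnt ω L B) ≤
      (s * t)⁻¹ * (A.card * B.card * M) := by
  have h1 : Ex V (fun ω => ∑ x ∈ A, ∑ y ∈ B, (both ω x y : ℝ)) ≤ A.card * B.card * M := by
    rw [H12.Ex_sum]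
    simp_rw [H12.Ex_sum]
    calc ∑ x ∈ A, ∑ y ∈ B, Ex V (fun ω => (both ω x y : ℝ)) ≤ ∑ x ∈ A, ∑ y ∈ B, M :=
          sum_le_sum fun x hx => sum_le_sum fun y hy => hM x hx y hy
      _ = A.card * B.card * M := by simp [mul_assoc]
  refine le_trans ?_ (mul_le_mul_of_nonneg_left h1 (by positivity))
  rw [E.Pr_eq_avg, J.Ex_eq_avg, ← J.avg_mul_left]
  apply J.avg_mono
  intro ω hω
  split_ifs with h
  · obtain ⟨L, hL, h2, h3⟩ := h
    rw [inv_mul_eq_div, le_div_iff₀ (by positivity), one_mul, sum_both hω]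
    calc s * t ≤ (cnt ω L A : ℝ) * cnt ω L B := by gcongr
      _ ≤ _ := single_le_sum (f := fun L => (cnt ω L A : ℝ) * cnt ω L B)
        (fun i _ => by positivity) (by simpa using hL)
  · positivity

/-! ## The statements -/

/-- decay of the covariance in the distance `dd`, for faces at distance at least `C1` -/
def COV (dd : Temp → Pt → Pt → ℝ) : Prop :=
  ∃ c C C1 : ℝ, 0 < c ∧ 0 ≤ C ∧ ∀ T : Temp, ∀ x ∈ T.faceSet, ∀ y ∈ T.faceSet, C1 ≤ dd T x y →
    Ex T.V (fun ω => (both ω x y : ℝ)) ≤ C * Real.exp (-c * dd T x y)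

/-- the loop `L` visits the box of radius `n` around `z`, leaves the double box and surrounds
few faces near the box -/
def Thin (ω : Conf) (L : Set Pt) (z : Pt) (n : ℕ) (κ : ℝ) : Prop :=
  Vis ω L z n ∧ (∃ v ∈ L, v ∉ box z (2 * n)) ∧ (cnt ω L (box z (4 * n)) : ℝ) ≤ κ * (n : ℝ) ^ 2

/-- FAT at all scales `n ≥ R ^ a`, with polynomial rate -/
def FATn : Prop :=
  ∀ a : ℝ, 0 < a → ∃ b c C : ℝ, 0 < b ∧ 0 < c ∧ 0 ≤ C ∧ ∀ (R : ℕ) (T : Temp), 1 ≤ R → Fits T R →
    ∀ (z : Pt) (n : ℕ), (R : ℝ) ^ a ≤ n → 16 * n ≤ dF T.faceSet z → ∀ κ : ℝ, 0 < κ → κ ≤ 1 →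
      Pr T.V (fun ω => ∃ L ∈ Loops ω, Thin ω L z n κ) ≤ C * κ ^ b + C * (R : ℝ) ^ (-c)

/-- what is used about the distance `dd` -/
structure Met (dd : Temp → Pt → Pt → ℝ) (C0 : ℝ) : Prop where
  nonneg : ∀ T : Temp, ∀ x ∈ T.faceSet, ∀ y ∈ T.faceSet, 0 ≤ dd T x y
  symm : ∀ T x y, dd T x y = dd T y x
  tri : ∀ T : Temp, ∀ x ∈ T.faceSet, ∀ y ∈ T.faceSet, ∀ z ∈ T.faceSet,
    dd T x z ≤ dd T x y + dd T y z
  near : ∀ T : Temp, ∀ z ∈ T.faceSet, ∀ x ∈ T.faceSet, 4 * dn z x ≤ dF T.faceSet z →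
    dd T z x ≤ C0

/-- a single loop visits two boxes -/
def PAIR (dd : Temp → Pt → Pt → ℝ) : Prop :=
  ∀ a' a1 : ℝ, 0 < a' → 0 < a1 → ∃ a c C : ℝ, 0 < a ∧ a ≤ a1 ∧ 0 < c ∧ 0 ≤ C ∧
    ∀ (R : ℕ) (T : Temp), 1 ≤ R → Fits T R → ∀ z ∈ T.faceSet, ∀ z' ∈ T.faceSet,
      (((R : ℝ) ^ a ≤ sz T z ∧ (R : ℝ) ^ a ≤ sz T z') ∨ a' * Real.log R ≤ dd T z z') →
      Pr T.V (fun ω => ∃ L ∈ Loops ω, Vis ω L z (sz T z) ∧ Vis ω L z' (sz T z')) ≤
        C * Real.exp (-c * dd T z z')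

/-! ## Small facts -/

theorem mem_box_dn {x y : Pt} {r : ℕ} : y ∈ box x r ↔ dn x y ≤ r := by
  unfold box
  rw [mem_product, mem_Icc, mem_Icc, dn_le_iff, abs_le, abs_le]
  constructor <;> intro h <;> refine ⟨⟨?_, ?_⟩, ?_, ?_⟩ <;> omega

theorem card_box (z : Pt) (r : ℕ) : ((box z r).card : ℝ) = (2 * r + 1) ^ 2 := by
  unfold box
  rw [card_product, Int.card_Icc, Int.card_Icc]
  have e1 : (z.1 + r + 1 - (z.1 - r)).toNat = 2 * r + 1 := by omega
  have e2 : (z.2 + r + 1 - (z.2 - r)).toNat = 2 * r + 1 := by omega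
  rw [e1, e2]
  push_cast
  ring

theorem mem_of_lt_dF {O : Set Pt} {z x : Pt} (h : dn z x < dF O z) : x ∈ O := by
  by_contra hx
  have : dF O z ≤ dn z x := Nat.sInf_le ⟨x, hx, le_rfl⟩
  omega

theorem dF_le_of_fits {R : ℕ} {T : Temp} (hf : Fits T R) {z : Pt} (hz : z ∈ T.faceSet) :
    dF T.faceSet z ≤ 2 * R + 1 := by
  have hz' := hf hz
  rw [mem_coe, mem_box_dn, dn_le_iff, abs_le, abs_le] at hz'
  simp only at hz'
  refine Nat.sInf_le ⟨(z.1 + (2 * R + 1), z.2), ?_, ?_⟩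
  · intro h
    have := hf h
    rw [mem_coe, mem_box_dn, dn_le_iff, abs_le, abs_le] at this
    simp only at this
    omega
  · rw [dn_le_iff, abs_le, abs_le]
    simp only
    push_cast
    omega

theorem vis_cnt {ω : Conf} {L : Set Pt} {z : Pt} {n : ℕ} (h : Vis ω L z n) :
    (1 : ℝ) ≤ cnt ω L (box z (4 * n)) := by
  classical
  obtain ⟨x, hx, hs, -⟩ := h
  have : 0 < cnt ω L (box z (4 * n)) := by
    apply card_pos.2
    refine ⟨x, mem_filter.2 ⟨?_, hs⟩⟩
    rw [mem_box_dn] at hx ⊢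
    omega
  exact_mod_cast this

theorem leaves {dd : Temp → Pt → Pt → ℝ} {C0 : ℝ} (hd : Met dd C0) {T : Temp} {z z' : Pt}
    (hz : z ∈ T.faceSet) (hz' : z' ∈ T.faceSet) (hpos : 0 < dF T.faceSet z')
    {n : ℕ} (hn : 1 ≤ n) (hn2 : 16 * n ≤ dF T.faceSet z) (hfar : 2 * C0 < dd T z z') {ω : Conf} {L : Set Pt} (h : Vis ω L z' (sz T z')) :
    ∃ v ∈ L, v ∉ box z (2 * n) := by
  obtain ⟨x, hx, -, v, hv, hvL⟩ := h
  refine ⟨v, hvL, fun hvb => ?_⟩
  rw [mem_box_dn] at hx hvb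
  have hvx : dn x v ≤ 1 := by
    simp only [T802.corners, mem_insert, mem_singleton] at hv
    rcases hv with rfl | rfl | rfl | rfl <;> rw [dn_le_iff, abs_le, abs_le] <;>
      simp only <;> push_cast <;> omega
  have hx' : x ∈ T.faceSet := by
    apply mem_of_lt_dF (z := z')
    unfold sz at hx
    omega
  have hzx : dn z x ≤ 2 * n + 1 := by
    have t := dn_tri z v x
    rw [dn_comm v x] at t
    omega
  have h1 := hd.near T z hz x hx' (by omega)
  have h2 := hd.near T z' hz' x hx' (by unfold sz at hx; omega)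
  have h3 := hd.tri T z hz x hx' z' hz'
  rw [hd.symm T x z'] at h3
  linarith

/-- off an event of probability `≤ p`, a loop which visits the box at `z` (and leaves the double
box) surrounds at least `s` faces near the box -/
def Thr (T : Temp) (z : Pt) (s p : ℝ) : Prop :=
  ∃ Ez : Conf → Prop, Pr T.V Ez ≤ p ∧ ∀ ω, ∀ L ∈ Loops ω, Vis ω L z (sz T z) →
    (1 ≤ sz T z → ∃ v ∈ L, v ∉ box z (2 * sz T z)) → ¬ Ez ω →
    s ≤ cnt ω L (box z (4 * sz T z))

theorem Pr_false' (V : Finset Pt) : Pr V (fun _ => False) = 0 := by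
  classical
  rw [E.Pr_eq_avg]
  simp [J.avg]

theorem thr_one (T : Temp) (z : Pt) : Thr T z 1 0 :=
  ⟨fun _ => False, (Pr_false' _).le, fun _ _ _ h _ _ => vis_cnt h⟩

theorem thr_fat {T : Temp} {z : Pt} {κ p : ℝ} (hn : 1 ≤ sz T z)
    (h : Pr T.V (fun ω => ∃ L ∈ Loops ω, Thin ω L z (sz T z) κ) ≤ p) :
    Thr T z (κ * (sz T z : ℝ) ^ 2) p :=
  ⟨_, h, fun ω L hL hv hl hE => by
    by_contra hlt
    exact hE ⟨L, hL, hv, hl hn, (not_le.1 hlt).le⟩⟩

theorem core {dd : Temp → Pt → Pt → ℝ} {C0 c C C1 : ℝ} (hd : Met dd C0) (hc : 0 < c) (hC : 0 ≤ C)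
    (hcov : ∀ T : Temp, ∀ x ∈ T.faceSet, ∀ y ∈ T.faceSet, C1 ≤ dd T x y →
      Ex T.V (fun ω => (both ω x y : ℝ)) ≤ C * Real.exp (-c * dd T x y))
    {T : Temp} {z z' : Pt} (hz : z ∈ T.faceSet) (hz' : z' ∈ T.faceSet)
    (hpz : 0 < dF T.faceSet z) (hpz' : 0 < dF T.faceSet z') (hfar : 2 * C0 < dd T z z')
    (hfar1 : C1 + 2 * C0 ≤ dd T z z')
    {s t pz pt : ℝ} (hs : 0 < s) (ht : 0 < t) (h1 : Thr T z s pz) (h2 : Thr T z' t pt) :
    Pr T.V (fun ω => ∃ L ∈ Loops ω, Vis ω L z (sz T z) ∧ Vis ω L z' (sz T z')) ≤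
      pz + pt + ((8 * (sz T z : ℝ) + 1) ^ 2 / s) * ((8 * (sz T z' : ℝ) + 1) ^ 2 / t) *
        (C * Real.exp (c * (2 * C0)) * Real.exp (-c * dd T z z')) := by
  obtain ⟨E1, hE1, hE1'⟩ := h1
  obtain ⟨E2, hE2, hE2'⟩ := h2
  have hfar' : 2 * C0 < dd T z' z := by rwa [hd.symm]
  have hM : ∀ x ∈ box z (4 * sz T z), ∀ y ∈ box z' (4 * sz T z'),
      Ex T.V (fun ω => (both ω x y : ℝ)) ≤
        C * Real.exp (c * (2 * C0)) * Real.exp (-c * dd T z z') := by
    intro x hx y hy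
    rw [mem_box_dn] at hx hy
    have hx' : x ∈ T.faceSet := mem_of_lt_dF (z := z) (by unfold sz at hx; omega)
    have hy' : y ∈ T.faceSet := mem_of_lt_dF (z := z') (by unfold sz at hy; omega)
    have a1 := hd.near T z hz x hx' (by unfold sz at hx; omega)
    have a2 := hd.near T z' hz' y hy' (by unfold sz at hy; omega)
    have a3 := hd.tri T z hz x hx' z' hz'
    have a4 := hd.tri T x hx' y hy' z' hz'
    rw [hd.symm T y z'] at a4
    refine (hcov T x hx' y hy' (by linarith)).trans ?_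
    rw [mul_assoc, ← Real.exp_add]
    refine mul_le_mul_of_nonneg_left (Real.exp_le_exp.2 ?_) hC
    nlinarith
  have hev : Pr T.V (fun ω => ∃ L ∈ Loops ω, Vis ω L z (sz T z) ∧ Vis ω L z' (sz T z')) ≤
      Pr T.V (fun ω => (E1 ω ∨ E2 ω) ∨ ∃ L ∈ Loops ω, s ≤ cnt ω L (box z (4 * sz T z)) ∧
        t ≤ cnt ω L (box z' (4 * sz T z'))) := by
    apply E.Pr_mono
    rintro ω - ⟨L, hL, hv, hv'⟩
    by_cases g1 : E1 ω
    · exact Or.inl (Or.inl g1)
    by_cases g2 : E2 ω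
    · exact Or.inl (Or.inr g2)
    refine Or.inr ⟨L, hL, hE1' ω L hL hv (fun h => ?_) g1, hE2' ω L hL hv' (fun h => ?_) g2⟩
    · exact leaves hd hz hz' hpz' h (by unfold sz; omega) hfar hv'
    · exact leaves hd hz' hz hpz h (by unfold sz; omega) hfar' hv
  refine hev.trans ((E.Pr_or_le _ _ _).trans (add_le_add ((E.Pr_or_le _ _ _).trans
    (add_le_add hE1 hE2)) ((two_box _ _ hs ht hM).trans (le_of_eq ?_))))
  rw [card_box, card_box]
  push_cast
  field_simp
  ring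

theorem pair {dd : Temp → Pt → Pt → ℝ} {C0 : ℝ} (hd : Met dd C0) (hcov : COV dd)
    (hfat : FATn) : PAIR dd := by
  obtain ⟨c, C, C1, hc, hC, hcov⟩ := hcov
  intro a' a1 ha' ha1
  obtain ⟨a, ha, haa1, haa⟩ : ∃ a : ℝ, 0 < a ∧ a ≤ a1 ∧ 16 * a ≤ c * a' :=
    ⟨min a1 (c * a' / 16), by positivity, min_le_left _ _, by
      have := min_le_right a1 (c * a' / 16)
      linarith⟩
  obtain ⟨b, c2, C2, hb, hc2, hC2, hfat⟩ := hfat a ha
  obtain ⟨c', hc', hc'1, hc'2, hc'3⟩ : ∃ c' : ℝ, 0 < c' ∧ c' ≤ b * c / 4 ∧ c' ≤ c2 * c / 8 ∧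
      c' ≤ c / 2 :=
    ⟨min (min (b * c / 4) (c2 * c / 8)) (c / 2), by positivity,
      (min_le_left _ _).trans (min_le_left _ _), (min_le_left _ _).trans (min_le_right _ _),
      min_le_right _ _⟩
  set M : ℝ := C * Real.exp (c * (2 * C0)) with hM
  have hM0 : 0 ≤ M := by positivity
  set B := max (2 * C0) (C1 + 2 * C0) with hB
  have hB1 : 2 * C0 ≤ B := le_max_left _ _
  have hB2 : C1 + 2 * C0 ≤ B := le_max_right _ _
  refine ⟨a, c', Real.exp (c' * B) + 4 * C2 + 81 * 81 * M, ha, haa1, hc', by positivity, ?_⟩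
  intro R T hR hfit z hz z' hz' hcase
  set D := dd T z z' with hD
  have hD0 : 0 ≤ D := hd.nonneg _ z hz z' hz'
  have hR1 : (1 : ℝ) ≤ R := by exact_mod_cast hR
  have hR0 : (0 : ℝ) < R := by linarith
  set l := Real.log R with hl
  have hl0 : 0 ≤ l := Real.log_nonneg hR1
  have hne : ∃ y, y ∉ T.faceSet := exists_not_mem_of_finite
    ((box (0, 0) R).finite_toSet.subset hfit)
  have hpz := dF_pos hne hz
  have hpz' := dF_pos hne hz'
  have hexp := Real.exp_pos (-c' * D)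
  -- small distance
  rcases le_or_gt D B with hsm | hfarB
  · refine (E.Pr_le_one _ _).trans ?_
    have : 1 ≤ Real.exp (c' * B) * Real.exp (-c' * D) := by
      rw [← Real.exp_add]
      apply Real.one_le_exp
      nlinarith
    have h2 : 0 ≤ (4 * C2 + 81 * 81 * M) * Real.exp (-c' * D) := by positivity
    linarith [this, h2, add_mul (Real.exp (c' * B)) (4 * C2 + 81 * 81 * M)
      (Real.exp (-c' * D)), add_assoc (Real.exp (c' * B)) (4 * C2) (81 * 81 * M)]
  have hfar : 2 * C0 < D := lt_of_le_of_lt hB1 hfarB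
  have hfar1 : C1 + 2 * C0 ≤ D := hB2.trans hfarB.le
  have hfin : M * Real.exp (c * D / 2) * Real.exp (-c * D) ≤ M * Real.exp (-c' * D) := by
    rw [mul_assoc, ← Real.exp_add]
    refine mul_le_mul_of_nonneg_left (Real.exp_le_exp.2 ?_) hM0
    nlinarith
  rcases le_or_gt (8 * l) (c * D) with hA | hBB
  · -- very far: count faces
    have hq : ∀ y ∈ T.faceSet, (8 * (sz T y : ℝ) + 1) ^ 2 / 1 ≤ 81 * (R : ℝ) ^ 2 := by
      intro y hy
      have h1 : 8 * sz T y + 1 ≤ 9 * R := by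
        have := dF_le_of_fits hfit hy
        unfold sz
        omega
      have h2 : 8 * (sz T y : ℝ) + 1 ≤ 9 * R := by exact_mod_cast h1
      rw [div_one]
      calc (8 * (sz T y : ℝ) + 1) ^ 2 ≤ (9 * R) ^ 2 := by gcongr
        _ = 81 * (R : ℝ) ^ 2 := by ring
    have hR4 : (R : ℝ) ^ 2 * (R : ℝ) ^ 2 ≤ Real.exp (c * D / 2) := by
      have e1 : (R : ℝ) ^ 2 * (R : ℝ) ^ 2 = Real.exp (4 * l) := by
        rw [show (4 : ℝ) * l = l + l + (l + l) by ring, Real.exp_add, Real.exp_add,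
          Real.exp_log hR0]
        ring
      rw [e1]
      apply Real.exp_le_exp.2
      linarith
    refine (core hd hc hC hcov hz hz' hpz hpz' hfar hfar1 one_pos one_pos (thr_one _ _)
      (thr_one _ _)).trans ?_
    rw [← hM, ← hD, zero_add, zero_add]
    calc (8 * (sz T z : ℝ) + 1) ^ 2 / 1 * ((8 * (sz T z' : ℝ) + 1) ^ 2 / 1) *
          (M * Real.exp (-c * D))
        ≤ (81 * (R : ℝ) ^ 2) * (81 * (R : ℝ) ^ 2) * (M * Real.exp (-c * D)) := by
          gcongr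
          · exact hq z hz
          · exact hq z' hz'
      _ = 81 * 81 * M * ((R : ℝ) ^ 2 * (R : ℝ) ^ 2) * Real.exp (-c * D) := by ring
      _ ≤ 81 * 81 * M * Real.exp (c * D / 2) * Real.exp (-c * D) := by gcongr
      _ = 81 * 81 * (M * Real.exp (c * D / 2) * Real.exp (-c * D)) := by ring
      _ ≤ 81 * 81 * (M * Real.exp (-c' * D)) := by gcongr
      _ = 81 * 81 * M * Real.exp (-c' * D) := by ring
      _ ≤ _ := by
        gcongr
        have := Real.exp_pos (c' * B)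
        linarith
  · -- the main case
    set κ := Real.exp (-(c * D / 4)) with hκ
    have hκ0 : 0 < κ := Real.exp_pos _
    have hκ1 : κ ≤ 1 := by
      rw [hκ, Real.exp_le_one_iff]
      have : 0 ≤ c * D := by positivity
      linarith
    have hRa : 1 ≤ (R : ℝ) ^ a := Real.one_le_rpow hR1 ha.le
    have hp : C2 * κ ^ b + C2 * (R : ℝ) ^ (-c2) ≤ 2 * C2 * Real.exp (-c' * D) := by
      have e1 : κ ^ b ≤ Real.exp (-c' * D) := by
        rw [hκ, ← Real.exp_mul]
        apply Real.exp_le_exp.2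
        nlinarith
      have e2 : (R : ℝ) ^ (-c2) ≤ Real.exp (-c' * D) := by
        rw [Real.rpow_def_of_pos hR0]
        apply Real.exp_le_exp.2
        nlinarith
      nlinarith [mul_le_mul_of_nonneg_left e1 hC2, mul_le_mul_of_nonneg_left e2 hC2]
    have hbox : ∀ y ∈ T.faceSet, ((R : ℝ) ^ a ≤ sz T y ∨ a' * l ≤ D) →
        ∃ s, 0 < s ∧ Thr T y s (2 * C2 * Real.exp (-c' * D)) ∧
          (8 * (sz T y : ℝ) + 1) ^ 2 / s ≤ 81 * Real.exp (c * D / 4) := by
      intro y hy hc3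
      rcases le_or_gt ((R : ℝ) ^ a) (sz T y) with hbig | hsmall
      · have hn1 : (1 : ℝ) ≤ sz T y := hRa.trans hbig
        have hn1' : 1 ≤ sz T y := by exact_mod_cast hn1
        refine ⟨κ * (sz T y : ℝ) ^ 2, by positivity, thr_fat hn1' ((hfat R T hR hfit y (sz T y) hbig
          (by unfold sz; omega) κ hκ0 hκ1).trans hp), ?_⟩
        have e3 : Real.exp (c * D / 4) = κ⁻¹ := by rw [hκ, Real.exp_neg, inv_inv]
        rw [e3, div_le_iff₀ (by positivity)]
        calc (8 * (sz T y : ℝ) + 1) ^ 2 ≤ (8 * (sz T y : ℝ) + sz T y) ^ 2 := by gcongr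
          _ = 81 * κ⁻¹ * (κ * (sz T y : ℝ) ^ 2) := by field_simp; ring
      · have hDl : a' * l ≤ D := by
          rcases hc3 with h | h
          · exact absurd h (not_le.2 hsmall)
          · exact h
        refine ⟨1, one_pos, ?_, ?_⟩
        · obtain ⟨Ez, h1, h2⟩ := thr_one T y
          exact ⟨Ez, h1.trans (by positivity), h2⟩
        rw [div_one]
        have e4 : (R : ℝ) ^ a * (R : ℝ) ^ a ≤ Real.exp (c * D / 4) := by
          rw [Real.rpow_def_of_pos hR0, ← Real.exp_add]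
          apply Real.exp_le_exp.2
          have h5 : 16 * a * l ≤ c * a' * l := mul_le_mul_of_nonneg_right haa hl0
          have h6 : c * (a' * l) ≤ c * D := mul_le_mul_of_nonneg_left hDl hc.le
          have h7 : 0 ≤ c * D := by positivity
          nlinarith
        have e5 : 8 * (sz T y : ℝ) + 1 ≤ 9 * (R : ℝ) ^ a := by linarith
        calc (8 * (sz T y : ℝ) + 1) ^ 2 ≤ (9 * (R : ℝ) ^ a) ^ 2 := by gcongr
          _ = 81 * ((R : ℝ) ^ a * (R : ℝ) ^ a) := by ring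
          _ ≤ 81 * Real.exp (c * D / 4) := by gcongr
    obtain ⟨s, hs, hs1, hs2⟩ := hbox z hz (hcase.imp (fun h => h.1) id)
    obtain ⟨t, ht, ht1, ht2⟩ := hbox z' hz' (hcase.imp (fun h => h.2) id)
    refine (core hd hc hC hcov hz hz' hpz hpz' hfar hfar1 hs ht hs1 ht1).trans ?_
    rw [← hM, ← hD]
    calc 2 * C2 * Real.exp (-c' * D) + 2 * C2 * Real.exp (-c' * D) +
          (8 * (sz T z : ℝ) + 1) ^ 2 / s * ((8 * (sz T z' : ℝ) + 1) ^ 2 / t) *
          (M * Real.exp (-c * D))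
        ≤ 2 * C2 * Real.exp (-c' * D) + 2 * C2 * Real.exp (-c' * D) +
          (81 * Real.exp (c * D / 4)) * (81 * Real.exp (c * D / 4)) *
          (M * Real.exp (-c * D)) := by gcongr
      _ = 4 * C2 * Real.exp (-c' * D) + 81 * 81 * (M * (Real.exp (c * D / 4) *
          Real.exp (c * D / 4)) * Real.exp (-c * D)) := by ring
      _ = 4 * C2 * Real.exp (-c' * D) + 81 * 81 * (M * Real.exp (c * D / 2) *
          Real.exp (-c * D)) := by
          rw [← Real.exp_add, show c * D / 4 + c * D / 4 = c * D / 2 by ring]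
      _ ≤ 4 * C2 * Real.exp (-c' * D) + 81 * 81 * (M * Real.exp (-c' * D)) := by gcongr
      _ = (4 * C2 + 81 * 81 * M) * Real.exp (-c' * D) := by ring
      _ ≤ _ := by
        gcongr
        have := Real.exp_pos (c' * B)
        linarith

end Vale.Agent.P155.BD
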