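import Vale.Agent.P155.N924.Rings

/-!
# P155, NT: arcs on rings force a large flux
-/

namespace Vale.Agent.P155.NT

open Vale.Agent.P155 Finset H904

/-- An arc of faces of `U` on the ring `s` around `z0` from a face of value `0` to a face of
value `1`. -/
def HasArc (z0 : Pt) (s : ℕ) (U : Finset Pt) (H : Pt → ℝ) : Prop :=
  ∃ (k : ℕ) (z : ℕ → Pt), (∀ i ≤ k, z i ∈ U ∧ dn z0 (z i) = s) ∧
    (∀ i < k, z (i + 1) ∈ nbrs (z i)) ∧
    (∀ i j, i ≤ k → j ≤ k → z i = z j → i = j) ∧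
    (∃ a ∈ nbrs (z 0), a ∉ U ∧ dn z0 a = s ∧ H a = 0) ∧
    (∃ b ∈ nbrs (z k), b ∉ U ∧ dn z0 b = s ∧ H b = 1)

theorem sq_sum_le (n : ℕ) (f : ℕ → ℝ) :
    (∑ i ∈ range n, f i) ^ 2 ≤ n * ∑ i ∈ range n, f i ^ 2 := by
  have := sq_sum_le_card_mul_sum_sq (s := range n) (f := f)
  rwa [card_range] at this

/-- energy of an arc -/
theorem arc_energy {z0 : Pt} {s : ℕ} (hs : 1 ≤ s) {U : Finset Pt} {H : Pt → ℝ}
    (h : HasArc z0 s U H) :
    1 / (9 * (s : ℝ)) ≤ ∑ x ∈ U.filter (fun x => dn z0 x = s),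
      ∑ y ∈ (nbrs x).filter (fun y => dn z0 y = s), (H y - H x) ^ 2 := by
  classical
  obtain ⟨k, z, hz, hstep, hinj, ⟨a, ha, haU, has, ha0⟩, ⟨b, hb, hbU, hbs, hb1⟩⟩ := h
  -- the image of the arc
  set A : Finset Pt := (range (k + 1)).image z with hA
  have hAsub : A ⊆ U.filter (fun x => dn z0 x = s) := by
    intro x hx
    rw [hA, mem_image] at hx
    obtain ⟨i, hi, rfl⟩ := hx
    rw [mem_range] at hi
    rw [mem_filter]
    exact hz i (by omega)
  have hinj' : Set.InjOn z (range (k + 1) : Finset ℕ) := by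
    intro i hi j hj hij
    rw [mem_coe, mem_range] at hi hj
    exact hinj i j (by omega) (by omega) hij
  have hcard : k + 1 ≤ 8 * s := by
    rw [← card_ring' z0 hs]
    have : A.card = k + 1 := by
      rw [hA, card_image_of_injOn hinj', card_range]
    rw [← this]
    apply card_le_card
    intro x hx
    rw [mem_ring']
    exact (mem_filter.1 (hAsub hx)).2
  set e : ℕ → Pt := fun i => if i = k then b else z (i + 1) with he
  set G : Pt → ℝ := fun x => ∑ y ∈ (nbrs x).filter (fun y => dn z0 y = s), (H y - H x) ^ 2 with hG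
  have h1 : ∑ x ∈ A, G x ≤ ∑ x ∈ U.filter (fun x => dn z0 x = s), G x := by
    apply sum_le_sum_of_subset_of_nonneg hAsub
    intros
    exact sum_nonneg fun _ _ => sq_nonneg _
  have h2 : ∑ x ∈ A, G x = ∑ i ∈ range (k + 1), G (z i) := by
    rw [hA, sum_image hinj']
  have heN : ∀ i ≤ k, e i ∈ (nbrs (z i)).filter (fun y => dn z0 y = s) := by
    intro i hi
    simp only [he]
    split_ifs with h
    · rw [mem_filter, h]; exact ⟨hb, hbs⟩
    · rw [mem_filter]; exact ⟨hstep i (by omega), (hz (i + 1) (by omega)).2⟩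
  have hae : a ≠ e 0 := by
    simp only [he]
    split_ifs with h
    · intro hab; rw [hab, hb1] at ha0; norm_num at ha0
    · intro hab; rw [hab] at haU; exact haU (hz _ (by omega)).1
  have h3 : (H (z 0) - H a) ^ 2 + ∑ i ∈ range (k + 1), (H (e i) - H (z i)) ^ 2 ≤
      ∑ i ∈ range (k + 1), G (z i) := by
    rw [sum_range_succ', sum_range_succ']
    have h4 : ∀ i ∈ range k, (H (e (i + 1)) - H (z (i + 1))) ^ 2 ≤ G (z (i + 1)) := by
      intro i hi
      rw [mem_range] at hi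
      exact single_le_sum (f := fun y => (H y - H (z (i + 1))) ^ 2) (fun _ _ => sq_nonneg _)
        (heN (i + 1) (by omega))
    have h5 : (H (e 0) - H (z 0)) ^ 2 + (H a - H (z 0)) ^ 2 ≤ G (z 0) := by
      have hsub : ({e 0, a} : Finset Pt) ⊆ (nbrs (z 0)).filter (fun y => dn z0 y = s) := by
        intro y hy
        rw [mem_insert, mem_singleton] at hy
        rcases hy with rfl | rfl
        · exact heN 0 (by omega)
        · rw [mem_filter]; exact ⟨ha, has⟩
      have := sum_le_sum_of_subset_of_nonneg (f := fun y => (H y - H (z 0)) ^ 2) hsub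
        (fun _ _ _ => sq_nonneg _)
      rwa [sum_pair (Ne.symm hae)] at this
    have h6 := sum_le_sum h4
    have h7 : (H (z 0) - H a) ^ 2 = (H a - H (z 0)) ^ 2 := by ring
    linarith
  have h4 : (1 : ℝ) = (H (z 0) - H a) + ∑ i ∈ range (k + 1), (H (e i) - H (z i)) := by
    rw [sum_range_succ]
    have h5 : ∑ i ∈ range k, (H (e i) - H (z i)) = H (z k) - H (z 0) := by
      rw [← sum_range_sub (fun i => H (z i)) k]
      apply sum_congr rfl
      intro i hi
      rw [mem_range] at hi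
      simp only [he]
      rw [if_neg (by omega)]
    rw [h5]
    have h6 : e k = b := by simp [he]
    rw [h6, hb1, ha0]
    ring
  have h5 : (1 : ℝ) ≤ (k + 2) * ((H (z 0) - H a) ^ 2 + ∑ i ∈ range (k + 1), (H (e i) - H (z i)) ^ 2) := by
    set f : ℕ → ℝ := fun i => if i = 0 then H (z 0) - H a else H (e (i - 1)) - H (z (i - 1)) with hf
    have h6 := sq_sum_le (k + 2) f
    have h7 : ∑ i ∈ range (k + 2), f i = 1 := by
      rw [sum_range_succ', h4]
      simp only [hf, if_true]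
      rw [add_comm]
      congr 1
    have h8 : ∑ i ∈ range (k + 2), f i ^ 2 =
        (H (z 0) - H a) ^ 2 + ∑ i ∈ range (k + 1), (H (e i) - H (z i)) ^ 2 := by
      rw [sum_range_succ']
      simp only [hf, if_true]
      rw [add_comm]
      congr 1
    rw [h7, h8] at h6
    push_cast at h6
    linarith
  have hs0 : (0 : ℝ) < s := by exact_mod_cast hs
  have h6 : ((k : ℝ) + 2) ≤ 9 * s := by
    have h61 : k + 2 ≤ 9 * s := by omega
    exact_mod_cast h61
  set S := (H (z 0) - H a) ^ 2 + ∑ i ∈ range (k + 1), (H (e i) - H (z i)) ^ 2 with hS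
  have hS0 : 0 ≤ S := add_nonneg (sq_nonneg _) (sum_nonneg fun _ _ => sq_nonneg _)
  have h7 : 1 / (9 * (s : ℝ)) ≤ S := by
    rw [div_le_iff₀ (by positivity)]
    nlinarith
  linarith

/-- energy of arcs on many rings -/
theorem arcs_enJ {z0 : Pt} {A B : ℕ} (hA : 1 ≤ A) {U : Finset Pt} {H g : Pt → ℝ}
    (h : ∀ s ∈ Ico A B, HasArc z0 s U H) (hg : ∀ x, dn z0 x ∈ Ico A B → g x = 1) :
    1 / 18 * ∑ s ∈ Ico A B, (1 : ℝ) / s ≤ enJ U g H := by
  classical
  set F : Pt → Pt → ℝ := fun x y => (g x ^ 2 + g y ^ 2) / 2 * (H y - H x) ^ 2 with hF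
  have hF0 : ∀ x y, 0 ≤ F x y := fun x y => by
    simp only [hF]; positivity
  have h1 : 2⁻¹ * ∑ x ∈ U, ∑ y ∈ nbrs x, F x y ≤ enJ U g H := by
    unfold enJ eS
    have e : ∑ x ∈ U, ∑ y ∈ nbrs x, F x y =
        ∑ x ∈ U, ∑ y ∈ (nbrs x).filter (fun y => y ∈ U), F x y +
        ∑ x ∈ U, ∑ y ∈ (nbrs x).filter (fun y => y ∉ U), F x y := by
      rw [← sum_add_distrib]
      apply sum_congr rfl
      intro x _
      rw [sum_filter_add_sum_filter_not]
    have h2 : 0 ≤ ∑ x ∈ U, ∑ y ∈ (nbrs x).filter (fun y => y ∉ U), F x y :=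
      sum_nonneg fun x _ => sum_nonneg fun y _ => hF0 x y
    rw [e]
    linarith
  have h2 : ∑ x ∈ U.filter (fun x => dn z0 x ∈ Ico A B), ∑ y ∈ nbrs x, F x y ≤
      ∑ x ∈ U, ∑ y ∈ nbrs x, F x y :=
    sum_le_sum_of_subset_of_nonneg (filter_subset _ _) fun x _ _ => sum_nonneg fun y _ => hF0 x y
  have e : ∀ x ∈ U.filter (fun x => dn z0 x ∈ Ico A B), dn z0 x ∈ Ico A B := by
    intro x hx
    exact (mem_filter.1 hx).2
  rw [← sum_fiberwise_of_maps_to e] at h2
  have h3 : ∑ s ∈ Ico A B, (1 : ℝ) / (9 * s) ≤ ∑ s ∈ Ico A B,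
      ∑ x ∈ (U.filter (fun x => dn z0 x ∈ Ico A B)).filter (fun x => dn z0 x = s),
      ∑ y ∈ nbrs x, F x y := by
    apply sum_le_sum
    intro s hs
    have hs1 : 1 ≤ s := by have := (mem_Ico.1 hs).1; omega
    refine (arc_energy hs1 (h s hs)).trans ?_
    have e2 : U.filter (fun x => dn z0 x = s) =
        (U.filter (fun x => dn z0 x ∈ Ico A B)).filter (fun x => dn z0 x = s) := by
      ext x
      simp only [mem_filter]
      constructor
      · rintro ⟨h1, h2⟩
        exact ⟨⟨h1, by rw [h2]; exact hs⟩, h2⟩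
      · rintro ⟨⟨h1, _⟩, h2⟩
        exact ⟨h1, h2⟩
    rw [← e2]
    apply sum_le_sum
    intro x hx
    have hx2 := (mem_filter.1 hx).2
    calc ∑ y ∈ (nbrs x).filter (fun y => dn z0 y = s), (H y - H x) ^ 2
        = ∑ y ∈ (nbrs x).filter (fun y => dn z0 y = s), F x y := by
          apply sum_congr rfl
          intro y hy
          have hy2 := (mem_filter.1 hy).2
          simp only [hF]
          rw [hg x (by rw [hx2]; exact hs), hg y (by rw [hy2]; exact hs)]
          ring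
      _ ≤ ∑ y ∈ nbrs x, F x y :=
          sum_le_sum_of_subset_of_nonneg (filter_subset _ _) fun y _ _ => hF0 x y
  have h4 : ∑ s ∈ Ico A B, (1 : ℝ) / (9 * s) = 1 / 9 * ∑ s ∈ Ico A B, (1 : ℝ) / s := by
    rw [mul_sum]
    apply sum_congr rfl
    intro s _
    rw [one_div, mul_inv, one_div, one_div]
  rw [h4] at h3
  linarith

/-- **Arcs on all rings force a large flux.** -/
theorem flux_arcs {z0 : Pt} {a m : ℕ} (ha : 1 ≤ a) (hm : 384 ≤ Real.log m) {U : Finset Pt}
    {H : Pt → ℝ} (hH : ∀ x ∈ U, HarmAt H x) (h01 : ∀ x, 0 ≤ H x ∧ H x ≤ 1)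
    (hb : ∀ x ∈ U, ∀ y ∈ nbrs x, y ∉ U → a < dn z0 y → dn z0 y < a * m ^ 3 →
      H y = 0 ∨ H y = 1)
    (hr : ∀ s, a * m ≤ s → s < a * m ^ 2 → HasArc z0 s U H) :
    Real.log m / 36 ≤ flux U (fun x => tent (Real.log m) a (a * m ^ 3) (dn z0 x)) H := by
  classical
  have hΛ : 0 < Real.log m := by linarith
  have hm1 : 1 ≤ m := by
    rcases Nat.eq_zero_or_pos m with h | h
    · rw [h] at hm; simp at hm; linarith
    · exact h
  have hm0 : (0 : ℝ) < m := by exact_mod_cast hm1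
  have ha0 : (0 : ℝ) < a := by exact_mod_cast ha
  set Λ := Real.log m with hΛdef
  set g : Pt → ℝ := fun x => tent Λ a (a * m ^ 3) (dn z0 x) with hg
  have l1 : Real.log ((a * m : ℕ) : ℝ) = Real.log a + Λ := by
    push_cast
    rw [Real.log_mul ha0.ne' hm0.ne']
  have l2 : Real.log ((a * m ^ 2 : ℕ) : ℝ) = Real.log a + 2 * Λ := by
    push_cast
    rw [Real.log_mul ha0.ne' (by positivity), Real.log_pow]
    push_cast; ring
  have l3 : Real.log ((a * m ^ 3 : ℕ) : ℝ) = Real.log a + 3 * Λ := by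
    push_cast
    rw [Real.log_mul ha0.ne' (by positivity), Real.log_pow]
    push_cast; ring
  have o1 : a ≤ a * m := Nat.le_mul_of_pos_right _ hm1
  have o2 : a * m ≤ a * m ^ 2 := by
    apply Nat.mul_le_mul_left; nlinarith
  have o3 : a * m ^ 2 ≤ a * m ^ 3 := by
    apply Nat.mul_le_mul_left
    exact Nat.pow_le_pow_right hm1 (by norm_num)
  have hone : ∀ x, dn z0 x ∈ Ico (a * m) (a * m ^ 2) → g x = 1 := by
    intro x hx
    rw [mem_Ico] at hx
    simp only [hg]
    apply tent_one hΛ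
    · have h1 := harm_ge ha (o1.trans hx.1)
      have h2 : Real.log ((a * m : ℕ) : ℝ) ≤ Real.log (dn z0 x) := by
        apply Real.log_le_log
        · exact_mod_cast (by omega : 0 < a * m)
        · exact_mod_cast hx.1
      linarith
    · have hx1 : 1 ≤ dn z0 x := by omega
      have h1 := harm_ge hx1 (hx.2.le.trans o3)
      have h2 : Real.log (dn z0 x) ≤ Real.log ((a * m ^ 2 : ℕ) : ℝ) := by
        apply Real.log_le_log
        · exact_mod_cast hx1
        · exact_mod_cast hx.2.le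
      linarith
  have hJ : Λ / 18 ≤ enJ U g H := by
    have h1 := arcs_enJ (A := a * m) (B := a * m ^ 2) (z0 := z0) (by omega) (U := U) (H := H) (g := g)
      (fun s hs => hr s (mem_Ico.1 hs).1 (mem_Ico.1 hs).2) hone
    have h2 := harm_ge (a := a * m) (b := a * m ^ 2) (by omega) o2
    rw [l1, l2] at h2
    linarith
  have hG : eS U (fun x y => (g y - g x) ^ 2) ≤ 512 / Λ := by
    have h1 := tent_energy hΛ z0 ha (o1.trans (o2.trans o3)) U
    refine h1.trans ?_
    rw [l3]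
    have : 128 / Λ ^ 2 * (1 + (Real.log a + 3 * Λ - Real.log a)) ≤ 128 / Λ ^ 2 * (4 * Λ) := by
      gcongr; linarith
    refine this.trans (le_of_eq ?_)
    field_simp
    norm_num
  have hbv : ∀ x ∈ U, ∀ y ∈ nbrs x, y ∉ U → g y ≠ 0 → H y = 0 ∨ H y = 1 := by
    intro x hx y hy hyU hgy
    apply hb x hx y hy hyU
    · by_contra h
      exact hgy (tent_zero_left hΛ (by omega))
    · by_contra h
      exact hgy (tent_zero_right hΛ (by omega))
  have hfl := flux_ge U g H hH h01 hbv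
  set J := enJ U g H with hJdef
  set G := eS U (fun x y => (g y - g x) ^ 2) with hGdef
  have hG0 : 0 ≤ G := eS_nonneg fun _ _ _ _ => sq_nonneg _
  have hJ0 : 0 < J := by linarith [div_pos hΛ (by norm_num : (0:ℝ) < 18)]
  have hsq : Real.sqrt G ≤ Real.sqrt J / 4 := by
    rw [show Real.sqrt J / 4 = Real.sqrt (J / 16) by
      rw [Real.sqrt_div hJ0.le, show (16 : ℝ) = 4 ^ 2 by norm_num, Real.sqrt_sq (by norm_num)]]
    apply Real.sqrt_le_sqrt
    refine hG.trans ?_
    have : 512 / Λ ≤ Λ / 18 / 16 := by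
      rw [div_le_iff₀ hΛ]
      nlinarith
    linarith
  have h1 : 2 * Real.sqrt J * Real.sqrt G ≤ J / 2 := by
    have h2 := Real.mul_self_sqrt hJ0.le
    have h3 := Real.sqrt_nonneg J
    nlinarith
  linarith

end Vale.Agent.P155.NT
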