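import Vale.Agent.P155.Skel
import Vale.Agent.P155.H904.Dist

/-!
# P155, NT (no touching), potential theory: flux of a harmonic function into its zero boundary

`U` finite set of faces, `H` harmonic on `U`, with boundary values `0` or `1` under the cut-off
`g`.  The flux into the zero boundary is at least `J - 2 √(J G)`.
-/

namespace Vale.Agent.P155.NT

open Vale.Agent.P155 Finset

/-- `H` is discrete harmonic at `x` -/
def HarmAt (H : Pt → ℝ) (x : Pt) : Prop := ∑ y ∈ nbrs x, (H y - H x) = 0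

theorem nbrs_comm {x y : Pt} : y ∈ nbrs x ↔ x ∈ nbrs y := by
  rw [mem_nbrs, mem_nbrs]
  unfold Adj
  rw [abs_sub_comm x.1, abs_sub_comm x.2]

/-- sum over the edges which touch `U` -/
noncomputable def eS (U : Finset Pt) (f : Pt → Pt → ℝ) : ℝ :=
  2⁻¹ * ∑ x ∈ U, ∑ y ∈ (nbrs x).filter (fun y => y ∈ U), f x y +
    ∑ x ∈ U, ∑ y ∈ (nbrs x).filter (fun y => y ∉ U), f x y

theorem inner_swap (U : Finset Pt) (f : Pt → Pt → ℝ) :
    ∑ x ∈ U, ∑ y ∈ (nbrs x).filter (fun y => y ∈ U), f x y =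
      ∑ x ∈ U, ∑ y ∈ (nbrs x).filter (fun y => y ∈ U), f y x := by
  rw [Finset.sum_sigma', Finset.sum_sigma']
  refine Finset.sum_bij' (fun p _ => ⟨p.2, p.1⟩) (fun p _ => ⟨p.2, p.1⟩) ?_ ?_ ?_ ?_ ?_
  · rintro ⟨x, y⟩ h
    simp only [mem_sigma, mem_filter] at h ⊢
    exact ⟨h.2.2, nbrs_comm.1 h.2.1, h.1⟩
  · rintro ⟨x, y⟩ h
    simp only [mem_sigma, mem_filter] at h ⊢
    exact ⟨h.2.2, nbrs_comm.1 h.2.1, h.1⟩
  · intros; rfl
  · intros; rfl
  · intros; rfl

/-- Green's formula: `Σ_{edges} ∇v ∇H = - Σ_x v ΔH + Σ_{(x,a)} v(a) (H a - H x)`. -/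
theorem green (U : Finset Pt) (v H : Pt → ℝ) (hH : ∀ x ∈ U, HarmAt H x) :
    eS U (fun x y => (v y - v x) * (H y - H x)) =
      ∑ x ∈ U, ∑ a ∈ (nbrs x).filter (fun y => y ∉ U), v a * (H a - H x) := by
  have h0 : ∑ x ∈ U, ∑ y ∈ nbrs x, v x * (H y - H x) = 0 := by
    apply sum_eq_zero
    intro x hx
    rw [← mul_sum, hH x hx, mul_zero]
  have hsplit : ∑ x ∈ U, ∑ y ∈ nbrs x, v x * (H y - H x) =
      ∑ x ∈ U, ∑ y ∈ (nbrs x).filter (fun y => y ∈ U), v x * (H y - H x) +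
      ∑ x ∈ U, ∑ y ∈ (nbrs x).filter (fun y => y ∉ U), v x * (H y - H x) := by
    rw [← sum_add_distrib]
    apply sum_congr rfl
    intro x _
    rw [sum_filter_add_sum_filter_not]
  have hsym : 2⁻¹ * ∑ x ∈ U, ∑ y ∈ (nbrs x).filter (fun y => y ∈ U), (v y - v x) * (H y - H x) =
      - ∑ x ∈ U, ∑ y ∈ (nbrs x).filter (fun y => y ∈ U), v x * (H y - H x) := by
    have e1 : ∑ x ∈ U, ∑ y ∈ (nbrs x).filter (fun y => y ∈ U), (v y - v x) * (H y - H x) =
        ∑ x ∈ U, ∑ y ∈ (nbrs x).filter (fun y => y ∈ U), v y * (H y - H x) -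
        ∑ x ∈ U, ∑ y ∈ (nbrs x).filter (fun y => y ∈ U), v x * (H y - H x) := by
      rw [← sum_sub_distrib]
      apply sum_congr rfl
      intro x _
      rw [← sum_sub_distrib]
      apply sum_congr rfl
      intro y _
      ring
    have e2 : ∑ x ∈ U, ∑ y ∈ (nbrs x).filter (fun y => y ∈ U), v y * (H y - H x) =
        - ∑ x ∈ U, ∑ y ∈ (nbrs x).filter (fun y => y ∈ U), v x * (H y - H x) := by
      rw [inner_swap, ← sum_neg_distrib]
      apply sum_congr rfl
      intro x _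
      rw [← sum_neg_distrib]
      apply sum_congr rfl
      intro y _
      ring
    rw [e1, e2]
    ring
  have hout : ∑ x ∈ U, ∑ y ∈ (nbrs x).filter (fun y => y ∉ U), (v y - v x) * (H y - H x) =
      ∑ x ∈ U, ∑ y ∈ (nbrs x).filter (fun y => y ∉ U), v y * (H y - H x) -
      ∑ x ∈ U, ∑ y ∈ (nbrs x).filter (fun y => y ∉ U), v x * (H y - H x) := by
    rw [← sum_sub_distrib]
    apply sum_congr rfl
    intro x _
    rw [← sum_sub_distrib]
    apply sum_congr rfl
    intro y _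
    ring
  unfold eS
  rw [hsym, hout]
  rw [hsplit] at h0
  linarith

theorem eS_mono {U : Finset Pt} {f f' : Pt → Pt → ℝ} (h : ∀ x ∈ U, ∀ y ∈ nbrs x, f x y ≤ f' x y) :
    eS U f ≤ eS U f' := by
  unfold eS
  have h1 : ∑ x ∈ U, ∑ y ∈ (nbrs x).filter (fun y => y ∈ U), f x y ≤
      ∑ x ∈ U, ∑ y ∈ (nbrs x).filter (fun y => y ∈ U), f' x y :=
    sum_le_sum fun x hx => sum_le_sum fun y hy => h x hx y (mem_filter.1 hy).1
  have h2 : ∑ x ∈ U, ∑ y ∈ (nbrs x).filter (fun y => y ∉ U), f x y ≤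
      ∑ x ∈ U, ∑ y ∈ (nbrs x).filter (fun y => y ∉ U), f' x y :=
    sum_le_sum fun x hx => sum_le_sum fun y hy => h x hx y (mem_filter.1 hy).1
  linarith

theorem eS_congr {U : Finset Pt} {f f' : Pt → Pt → ℝ} (h : ∀ x ∈ U, ∀ y ∈ nbrs x, f x y = f' x y) :
    eS U f = eS U f' :=
  le_antisymm (eS_mono fun x hx y hy => (h x hx y hy).le)
    (eS_mono fun x hx y hy => (h x hx y hy).ge)

theorem eS_add (U : Finset Pt) (f f' : Pt → Pt → ℝ) :
    eS U (fun x y => f x y + f' x y) = eS U f + eS U f' := by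
  unfold eS
  simp only [sum_add_distrib]
  ring

theorem eS_mul (U : Finset Pt) (c : ℝ) (f : Pt → Pt → ℝ) :
    eS U (fun x y => c * f x y) = c * eS U f := by
  unfold eS
  simp only [← mul_sum]
  ring

theorem eS_nonneg {U : Finset Pt} {f : Pt → Pt → ℝ} (h : ∀ x ∈ U, ∀ y ∈ nbrs x, 0 ≤ f x y) :
    0 ≤ eS U f := by
  have := eS_mono (f := fun _ _ => 0) (f' := f) h
  unfold eS at *
  simpa using this

/-- Cauchy–Schwarz for edge sums -/
theorem eS_cs (U : Finset Pt) (f f' : Pt → Pt → ℝ) :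
    eS U (fun x y => f x y * f' x y) ≤
      Real.sqrt (eS U (fun x y => f x y ^ 2)) * Real.sqrt (eS U (fun x y => f' x y ^ 2)) := by
  set A := eS U (fun x y => f x y ^ 2) with hA
  set B := eS U (fun x y => f' x y ^ 2) with hB
  have hA0 : 0 ≤ A := eS_nonneg fun _ _ _ _ => sq_nonneg _
  have hB0 : 0 ≤ B := eS_nonneg fun _ _ _ _ => sq_nonneg _
  have key : ∀ t : ℝ, 0 < t → eS U (fun x y => f x y * f' x y) ≤ t / 2 * A + 1 / (2 * t) * B := by
    intro t ht
    rw [hA, hB, ← eS_mul, ← eS_mul, ← eS_add]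
    apply eS_mono
    intro x _ y _
    have h1 : 0 ≤ (t * f x y - f' x y) ^ 2 := sq_nonneg _
    have h2 : f x y * f' x y ≤ (t ^ 2 * f x y ^ 2 + f' x y ^ 2) / (2 * t) := by
      rw [le_div_iff₀ (by positivity)]
      nlinarith
    refine h2.trans (le_of_eq ?_)
    field_simp
  rcases hA0.eq_or_lt with hA1 | hA1
  · -- `A = 0`
    rw [← hA1, Real.sqrt_zero, zero_mul]
    by_contra hlt
    rw [not_le] at hlt
    set P := eS U (fun x y => f x y * f' x y) with hP
    have := key ((B + 1) / P) (by positivity)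
    rw [← hA1, mul_zero, zero_add] at this
    have h3 : 1 / (2 * ((B + 1) / P)) * B = P * (B / (2 * (B + 1))) := by
      field_simp
    rw [h3] at this
    have h4 : B / (2 * (B + 1)) ≤ 1 / 2 := by
      rw [div_le_div_iff₀ (by positivity) (by norm_num)]
      linarith
    nlinarith
  rcases hB0.eq_or_lt with hB1 | hB1
  · rw [← hB1, Real.sqrt_zero, mul_zero]
    by_contra hlt
    rw [not_le] at hlt
    set P := eS U (fun x y => f x y * f' x y) with hP
    have := key (P / (A + 1)) (by positivity)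
    rw [← hB1, mul_zero, add_zero] at this
    have h3 : P / (A + 1) / 2 * A = P * (A / (2 * (A + 1))) := by
      field_simp
    rw [h3] at this
    have h4 : A / (2 * (A + 1)) ≤ 1 / 2 := by
      rw [div_le_div_iff₀ (by positivity) (by norm_num)]
      linarith
    nlinarith
  · have hsA := Real.sqrt_pos.2 hA1
    have hsB := Real.sqrt_pos.2 hB1
    have := key (Real.sqrt B / Real.sqrt A) (by positivity)
    refine this.trans (le_of_eq ?_)
    have e1 := Real.mul_self_sqrt hA0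
    have e2 := Real.mul_self_sqrt hB0
    have h5 : Real.sqrt B / Real.sqrt A / 2 * A = Real.sqrt B * Real.sqrt A / 2 := by
      nth_rewrite 2 [← e1]
      field_simp
    have h6 : 1 / (2 * (Real.sqrt B / Real.sqrt A)) * B = Real.sqrt A * Real.sqrt B / 2 := by
      nth_rewrite 2 [← e2]
      field_simp
    rw [h5, h6]
    ring

/-- flux of `H` into the zero boundary of `U`, with weight `g²` -/
noncomputable def flux (U : Finset Pt) (g H : Pt → ℝ) : ℝ :=
  ∑ x ∈ U, ∑ a ∈ (nbrs x).filter (fun y => y ∉ U), g a ^ 2 * ((1 - H a) * H x)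

/-- weighted energy -/
noncomputable def enJ (U : Finset Pt) (g H : Pt → ℝ) : ℝ :=
  eS U (fun x y => (g x ^ 2 + g y ^ 2) / 2 * (H y - H x) ^ 2)

/-- **The flux lower bound.** -/
theorem flux_ge (U : Finset Pt) (g H : Pt → ℝ) (hH : ∀ x ∈ U, HarmAt H x)
    (h01 : ∀ x, 0 ≤ H x ∧ H x ≤ 1)
    (hb : ∀ x ∈ U, ∀ a ∈ nbrs x, a ∉ U → g a ≠ 0 → H a = 0 ∨ H a = 1) :
    enJ U g H - 2 * Real.sqrt (enJ U g H) * Real.sqrt (eS U (fun x y => (g y - g x) ^ 2)) ≤
      flux U g H := by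
  set v : Pt → ℝ := fun x => (1 - H x) * g x ^ 2 with hv
  have h1 := green U v H hH
  have h2 : ∑ x ∈ U, ∑ a ∈ (nbrs x).filter (fun y => y ∉ U), v a * (H a - H x) =
      - flux U g H := by
    unfold flux
    rw [← sum_neg_distrib]
    apply sum_congr rfl
    intro x hx
    rw [← sum_neg_distrib]
    apply sum_congr rfl
    intro a ha
    rw [mem_filter] at ha
    simp only [hv]
    by_cases hg : g a = 0
    · rw [hg]; ring
    · rcases hb x hx a ha.1 ha.2 hg with h | h <;> rw [h] <;> ring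
  have h3 : eS U (fun x y => (v y - v x) * (H y - H x)) = - enJ U g H +
      eS U (fun x y => ((2 - H x - H y) / 2 * (g y - g x)) * ((g x + g y) * (H y - H x))) := by
    unfold enJ
    have : (- eS U (fun x y => (g x ^ 2 + g y ^ 2) / 2 * (H y - H x) ^ 2)) =
        eS U (fun x y => (-1) * ((g x ^ 2 + g y ^ 2) / 2 * (H y - H x) ^ 2)) := by
      rw [eS_mul]; ring
    rw [this, ← eS_add]
    apply eS_congr
    intro x _ y _
    simp only [hv]
    ring
  have h4 : eS U (fun x y => ((2 - H x - H y) / 2 * (g y - g x)) * ((g x + g y) * (H y - H x))) ≤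
      Real.sqrt (eS U (fun x y => ((2 - H x - H y) / 2 * (g y - g x)) ^ 2)) *
        Real.sqrt (eS U (fun x y => ((g x + g y) * (H y - H x)) ^ 2)) := eS_cs _ _ _
  have h5 : eS U (fun x y => ((2 - H x - H y) / 2 * (g y - g x)) ^ 2) ≤
      eS U (fun x y => (g y - g x) ^ 2) := by
    apply eS_mono
    intro x _ y _
    obtain ⟨a1, a2⟩ := h01 x
    obtain ⟨b1, b2⟩ := h01 y
    rw [mul_pow]
    apply mul_le_of_le_one_left (sq_nonneg _)
    apply pow_le_one₀
    · linarith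
    · linarith
  have h6 : eS U (fun x y => ((g x + g y) * (H y - H x)) ^ 2) ≤ 4 * enJ U g H := by
    unfold enJ
    rw [← eS_mul]
    apply eS_mono
    intro x _ y _
    have : (g x + g y) ^ 2 ≤ 2 * (g x ^ 2 + g y ^ 2) := by nlinarith [sq_nonneg (g x - g y)]
    have h7 : 0 ≤ (H y - H x) ^ 2 := sq_nonneg _
    rw [mul_pow]
    nlinarith
  have h7 : Real.sqrt (eS U (fun x y => ((g x + g y) * (H y - H x)) ^ 2)) ≤
      2 * Real.sqrt (enJ U g H) := by
    refine (Real.sqrt_le_sqrt h6).trans (le_of_eq ?_)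
    rw [Real.sqrt_mul (by norm_num), show (4 : ℝ) = 2 ^ 2 by norm_num, Real.sqrt_sq (by norm_num)]
  have h8 : Real.sqrt (eS U (fun x y => ((2 - H x - H y) / 2 * (g y - g x)) ^ 2)) ≤
      Real.sqrt (eS U (fun x y => (g y - g x) ^ 2)) := Real.sqrt_le_sqrt h5
  have h9 : Real.sqrt (eS U (fun x y => ((2 - H x - H y) / 2 * (g y - g x)) ^ 2)) *
        Real.sqrt (eS U (fun x y => ((g x + g y) * (H y - H x)) ^ 2)) ≤
      Real.sqrt (eS U (fun x y => (g y - g x) ^ 2)) * (2 * Real.sqrt (enJ U g H)) :=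
    mul_le_mul h8 h7 (Real.sqrt_nonneg _) (Real.sqrt_nonneg _)
  linarith

end Vale.Agent.P155.NT
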