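import Vale.Agent.P155.H904.Sum
import Vale.Agent.P155.H12.Inputs

/-!
# P155 (rough boundary), (N): the height difference along a path as a short linear statistic
-/

namespace Vale.Agent.P155.N924

open Vale.Agent.P155 Finset Skel H904

/-- `h x - h y` is a sum of at most `k` edge statistics at distance at most `n` from `x0` -/
def Lin (V : Finset Pt) (x0 x y : Pt) (k n : ℕ) : Prop :=
  ∃ (e : ℕ → Pt × Bool) (s : ℕ → ℝ), (∀ i, |s i| ≤ 1) ∧ (∀ i < k, dn x0 (e i).1 ≤ n) ∧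
    ∀ ω ∈ DD V, (h ω x : ℝ) - h ω y =
      ∑ i ∈ range k, s i * (E.ind (eW (e i)) (eB (e i)) ω.1 - E.ind (eW (e i)) (eB (e i)) ω.2)

theorem Lin.refl (V : Finset Pt) (x0 x : Pt) (n : ℕ) : Lin V x0 x x 0 n :=
  ⟨fun _ => (x, true), fun _ => 0, by simp, by simp, by simp⟩

theorem Lin.mono {V : Finset Pt} {x0 x y : Pt} {k n n' : ℕ} (h : Lin V x0 x y k n) (hn : n ≤ n') :
    Lin V x0 x y k n' := by
  obtain ⟨e, s, h1, h2, h3⟩ := h
  exact ⟨e, s, h1, fun i hi => (h2 i hi).trans hn, h3⟩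

theorem Lin.cons {V : Finset Pt} {x0 x y z : Pt} {k n : ℕ} (h : Lin V x0 x y k n)
    {e0 : Pt × Bool} {s0 : ℝ} (hs : |s0| ≤ 1) (hd : dn x0 e0.1 ≤ n)
    (hz : ∀ ω ∈ DD V, (P155.h ω y : ℝ) - P155.h ω z =
      s0 * (E.ind (eW e0) (eB e0) ω.1 - E.ind (eW e0) (eB e0) ω.2)) :
    Lin V x0 x z (k + 1) n := by
  obtain ⟨e, s, h1, h2, h3⟩ := h
  refine ⟨fun i => if i = k then e0 else e i, fun i => if i = k then s0 else s i, ?_, ?_, ?_⟩
  · intro i
    simp only
    split_ifs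
    · exact hs
    · exact h1 i
  · intro i hi
    simp only
    split_ifs with hik
    · exact hd
    · exact h2 i (by omega)
  · intro ω hω
    rw [sum_range_succ]
    beta_reduce
    rw [if_pos rfl, if_pos rfl, ← hz ω hω]
    have : ∑ i ∈ range k, (if i = k then s0 else s i) *
        (E.ind (eW (if i = k then e0 else e i)) (eB (if i = k then e0 else e i)) ω.1 -
          E.ind (eW (if i = k then e0 else e i)) (eB (if i = k then e0 else e i)) ω.2) =
        ∑ i ∈ range k, s i * (E.ind (eW (e i)) (eB (e i)) ω.1 -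
          E.ind (eW (e i)) (eB (e i)) ω.2) := by
      apply sum_congr rfl
      intro i hi
      have : i ≠ k := (mem_range.1 hi).ne
      simp only [if_neg this]
    rw [this, ← h3 ω hω]
    ring

/-- horizontal increment -/
theorem incr_h {V : Finset Pt} (x y : ℤ) : ∃ s0 : ℝ, |s0| ≤ 1 ∧ ∀ ω ∈ DD V,
    (h ω (x, y) : ℝ) - h ω (x - 1, y) =
      s0 * (E.ind (eW ((x, y), false)) (eB ((x, y), false)) ω.1 -
        E.ind (eW ((x, y), false)) (eB ((x, y), false)) ω.2) := by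
  refine ⟨E.ss (x, y), (abs_ss _).le, ?_⟩
  intro ω hω
  obtain ⟨hm1, hm2⟩ := J.PM_of_DD hω
  obtain ⟨i1, i2⟩ := E1.e_incr V ω hω (x, y)
  rw [i1]
  simp only [eW, eB, Bool.false_eq_true, if_false]
  rw [← E.iv_eq hm1, ← E.iv_eq hm2]

/-- vertical increment -/
theorem incr_v {V : Finset Pt} (x y : ℤ) : ∃ s0 : ℝ, |s0| ≤ 1 ∧ ∀ ω ∈ DD V,
    (h ω (x, y) : ℝ) - h ω (x, y - 1) =
      s0 * (E.ind (eW ((x, y), true)) (eB ((x, y), true)) ω.1 -
        E.ind (eW ((x, y), true)) (eB ((x, y), true)) ω.2) := by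
  refine ⟨- E.ss (x, y), by rw [abs_neg]; exact (abs_ss _).le, ?_⟩
  intro ω hω
  obtain ⟨hm1, hm2⟩ := J.PM_of_DD hω
  obtain ⟨i1, i2⟩ := E1.e_incr V ω hω (x, y)
  rw [i2]
  simp only [eW, eB, if_true]
  rw [← E.ih_eq hm1, ← E.ih_eq hm2]
  ring

theorem Lin.left {V : Finset Pt} {x0 x : Pt} {a b : ℤ} {k n : ℕ} (h : Lin V x0 x (a, b) k n)
    (hd : dn x0 (a, b) ≤ n) : Lin V x0 x (a - 1, b) (k + 1) n := by
  obtain ⟨s0, h1, h2⟩ := incr_h (V := V) a b
  exact h.cons (e0 := ((a, b), false)) (s0 := s0) h1 hd h2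

theorem Lin.right {V : Finset Pt} {x0 x : Pt} {a b : ℤ} {k n : ℕ} (h : Lin V x0 x (a, b) k n)
    (hd : dn x0 (a + 1, b) ≤ n) : Lin V x0 x (a + 1, b) (k + 1) n := by
  obtain ⟨s0, h1, h2⟩ := incr_h (V := V) (a + 1) b
  refine h.cons (e0 := ((a + 1, b), false)) (s0 := -s0) (by rwa [abs_neg]) hd (fun ω hω => ?_)
  have := h2 ω hω
  rw [add_sub_cancel_right] at this
  rw [neg_mul, ← this]
  ring

theorem Lin.down {V : Finset Pt} {x0 x : Pt} {a b : ℤ} {k n : ℕ} (h : Lin V x0 x (a, b) k n)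
    (hd : dn x0 (a, b) ≤ n) : Lin V x0 x (a, b - 1) (k + 1) n := by
  obtain ⟨s0, h1, h2⟩ := incr_v (V := V) a b
  exact h.cons (e0 := ((a, b), true)) (s0 := s0) h1 hd h2

theorem Lin.up {V : Finset Pt} {x0 x : Pt} {a b : ℤ} {k n : ℕ} (h : Lin V x0 x (a, b) k n)
    (hd : dn x0 (a, b + 1) ≤ n) : Lin V x0 x (a, b + 1) (k + 1) n := by
  obtain ⟨s0, h1, h2⟩ := incr_v (V := V) a (b + 1)
  refine h.cons (e0 := ((a, b + 1), true)) (s0 := -s0) (by rwa [abs_neg]) hd (fun ω hω => ?_)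
  have := h2 ω hω
  rw [add_sub_cancel_right] at this
  rw [neg_mul, ← this]
  ring

theorem lin_h {V : Finset Pt} {x0 x : Pt} {a b : ℤ} {k n : ℕ} (h : Lin V x0 x (a, b) k n) (t : ℤ)
    (h0 : dn x0 (a, b) ≤ n) (h1 : dn x0 (a + t, b) ≤ n) : Lin V x0 x (a + t, b) (k + t.natAbs) n := by
  obtain ⟨m, rfl | rfl⟩ := Int.eq_nat_or_neg t
  · have key : ∀ j : ℕ, j ≤ m → Lin V x0 x (a + j, b) (k + j) n := by
      intro j
      induction j with
      | zero => intro _; simpa using h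
      | succ j ih =>
        intro hj
        have := (ih (by omega)).right (by
          rw [dn_le_iff] at h0 h1 ⊢
          simp only [abs_le] at h0 h1 ⊢
          omega)
        push_cast
        rw [show a + ((j : ℤ) + 1) = a + j + 1 by ring]
        exact this
    have := key m le_rfl
    simpa using this
  · have key : ∀ j : ℕ, j ≤ m → Lin V x0 x (a - j, b) (k + j) n := by
      intro j
      induction j with
      | zero => intro _; simpa using h
      | succ j ih =>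
        intro hj
        have := (ih (by omega)).left (by
          rw [dn_le_iff] at h0 h1 ⊢
          simp only [abs_le] at h0 h1 ⊢
          omega)
        push_cast
        rw [show a - ((j : ℤ) + 1) = a - j - 1 by ring]
        exact this
    have := key m le_rfl
    simpa [sub_eq_add_neg] using this

theorem lin_v {V : Finset Pt} {x0 x : Pt} {a b : ℤ} {k n : ℕ} (h : Lin V x0 x (a, b) k n) (t : ℤ)
    (h0 : dn x0 (a, b) ≤ n) (h1 : dn x0 (a, b + t) ≤ n) : Lin V x0 x (a, b + t) (k + t.natAbs) n := by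
  obtain ⟨m, rfl | rfl⟩ := Int.eq_nat_or_neg t
  · have key : ∀ j : ℕ, j ≤ m → Lin V x0 x (a, b + j) (k + j) n := by
      intro j
      induction j with
      | zero => intro _; simpa using h
      | succ j ih =>
        intro hj
        have := (ih (by omega)).up (by
          rw [dn_le_iff] at h0 h1 ⊢
          simp only [abs_le] at h0 h1 ⊢
          omega)
        push_cast
        rw [show b + ((j : ℤ) + 1) = b + j + 1 by ring]
        exact this
    have := key m le_rfl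
    simpa using this
  · have key : ∀ j : ℕ, j ≤ m → Lin V x0 x (a, b - j) (k + j) n := by
      intro j
      induction j with
      | zero => intro _; simpa using h
      | succ j ih =>
        intro hj
        have := (ih (by omega)).down (by
          rw [dn_le_iff] at h0 h1 ⊢
          simp only [abs_le] at h0 h1 ⊢
          omega)
        push_cast
        rw [show b - ((j : ℤ) + 1) = b - j - 1 by ring]
        exact this
    have := key m le_rfl
    simpa [sub_eq_add_neg] using this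

/-- **path representation** -/
theorem lin_path (V : Finset Pt) (x y : Pt) : ∃ k ≤ 2 * dn x y, Lin V x x y k (dn x y) := by
  obtain ⟨x1, x2⟩ := x
  obtain ⟨y1, y2⟩ := y
  set n := dn (x1, x2) (y1, y2) with hn
  obtain ⟨⟨h1, h2, h3, h4⟩, -⟩ := dn_spec (x1, x2) (y1, y2)
  rw [← hn] at h1 h2 h3 h4
  simp only at h1 h2 h3 h4
  have L0 := Lin.refl V (x1, x2) (x1, x2) n
  have L1 := lin_h L0 (y1 - x1) (by rw [dn_self]; omega) (by
    rw [dn_le_iff]
    simp only [abs_le]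
    omega)
  rw [show x1 + (y1 - x1) = y1 by ring] at L1
  have L2 := lin_v L1 (y2 - x2) (by
    rw [dn_le_iff]
    simp only [abs_le]
    omega) (by
    rw [dn_le_iff]
    simp only [abs_le]
    omega)
  rw [show x2 + (y2 - x2) = y2 by ring] at L2
  exact ⟨_, by omega, L2⟩

/-- height as a short linear statistic -/
theorem lin_boundary {T : Temp} (hne : ∃ y, y ∉ T.faceSet) (x : Pt) :
    ∃ k ≤ 2 * dF T.faceSet x, ∃ (e : ℕ → Pt × Bool) (s : ℕ → ℝ), (∀ i, |s i| ≤ 1) ∧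
      (∀ i < k, dn x (e i).1 ≤ dF T.faceSet x) ∧
      ∀ ω ∈ DD T.V, (h ω x : ℝ) =
        ∑ i ∈ range k, s i * (E.ind (eW (e i)) (eB (e i)) ω.1 - E.ind (eW (e i)) (eB (e i)) ω.2) := by
  obtain ⟨y, hy, hxy⟩ := exists_dF hne x
  obtain ⟨k, hk, e, s, h1, h2, h3⟩ := lin_path T.V x y
  rw [hxy] at hk h2
  refine ⟨k, hk, e, s, h1, h2, fun ω hω => ?_⟩
  rw [← h3 ω hω, H12.h_off hω hy]
  simp

/-- the covariance of two edge statistics -/
theorem cov2 (h1 : A_one) (h2 : A_two) {T : Temp} (hsub : Sub T T.V) (e e' : Pt × Bool)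
    {B : ℝ} (hB : eW e ∈ T.V → eB e ∈ T.V → eW e' ∈ T.V → eB e' ∈ T.V →
      |E.eCov (Kinv T.V) (eW e) (eB e) (eW e') (eB e')| ≤ B) (hB0 : 0 ≤ B) :
    |Ex T.V (fun ω => (E.ind (eW e) (eB e) ω.1 - E.ind (eW e) (eB e) ω.2) *
      (E.ind (eW e') (eB e') ω.1 - E.ind (eW e') (eB e') ω.2))| ≤ 2 * B := by
  have hne : (PM T.V).Nonempty := by
    obtain ⟨m, hm, _⟩ := hsub
    exact ⟨m, hm⟩
  have hz : ∀ e : Pt × Bool, ¬ (eW e ∈ T.V ∧ eB e ∈ T.V) → ∀ ω ∈ DD T.V,
      E.ind (eW e) (eB e) ω.1 = 0 ∧ E.ind (eW e) (eB e) ω.2 = 0 := by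
    intro e he ω hω
    obtain ⟨hm1, hm2⟩ := J.PM_of_DD hω
    exact ⟨ind_zero hm1 (e_adj e) he, ind_zero hm2 (e_adj e) he⟩
  by_cases c1 : eW e ∈ T.V ∧ eB e ∈ T.V
  swap
  · have : Ex T.V (fun ω => (E.ind (eW e) (eB e) ω.1 - E.ind (eW e) (eB e) ω.2) *
      (E.ind (eW e') (eB e') ω.1 - E.ind (eW e') (eB e') ω.2)) = 0 := by
      unfold Ex
      rw [sum_eq_zero, smul_zero]
      intro ω hω
      rw [(hz e c1 ω hω).1, (hz e c1 ω hω).2]
      ring
    rw [this, abs_zero]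
    positivity
  by_cases c2 : eW e' ∈ T.V ∧ eB e' ∈ T.V
  swap
  · have : Ex T.V (fun ω => (E.ind (eW e) (eB e) ω.1 - E.ind (eW e) (eB e) ω.2) *
      (E.ind (eW e') (eB e') ω.1 - E.ind (eW e') (eB e') ω.2)) = 0 := by
      unfold Ex
      rw [sum_eq_zero, smul_zero]
      intro ω hω
      rw [(hz e' c2 ω hω).1, (hz e' c2 ω hω).2]
      ring
    rw [this, abs_zero]
    positivity
  have key := E.cov_prod hne hne 1 1 (E.ind (eW e) (eB e)) (E.ind (eW e') (eB e'))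
    (E.ind (eW e) (eB e)) (E.ind (eW e') (eB e'))
  have h0 : J.avg (PM T.V ×ˢ PM T.V) (fun p : (Pt → Pt) × (Pt → Pt) =>
      1 * (E.ind (eW e) (eB e) p.1 - E.ind (eW e) (eB e) p.2)) = 0 := by
    rw [J.avg_mul_left, J.avg_sub (PM T.V ×ˢ PM T.V)
      (fun p : (Pt → Pt) × (Pt → Pt) => E.ind (eW e) (eB e) p.1)
      (fun p => E.ind (eW e) (eB e) p.2), E1.avg_prod_fst hne (E.ind (eW e) (eB e)),
      E1.avg_prod_snd hne (E.ind (eW e) (eB e))]
    ring
  rw [h0, zero_mul, sub_zero] at key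
  have hcov := E.cov_ind h1 h2 hsub c1.1 c1.2 c2.1 c2.2 (eW_white e) (eW_white e') (e_adj e)
    (e_adj e')
  rw [E1.Ex1_eq_avg, E1.Ex1_eq_avg, E1.Ex1_eq_avg] at hcov
  have e2 : Ex T.V (fun ω => (E.ind (eW e) (eB e) ω.1 - E.ind (eW e) (eB e) ω.2) *
      (E.ind (eW e') (eB e') ω.1 - E.ind (eW e') (eB e') ω.2)) =
      J.avg (PM T.V ×ˢ PM T.V) (fun p : (Pt → Pt) × (Pt → Pt) =>
        (1 * (E.ind (eW e) (eB e) p.1 - E.ind (eW e) (eB e) p.2)) *
        (1 * (E.ind (eW e') (eB e') p.1 - E.ind (eW e') (eB e') p.2))) := by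
    unfold Ex DD J.avg
    congr 1
    apply sum_congr rfl
    intro p _
    ring
  rw [e2, key]
  have h3 := hB c1.1 c1.2 c2.1 c2.2
  have : J.avg (PM T.V) (fun m => E.ind (eW e) (eB e) m * E.ind (eW e') (eB e') m) -
      J.avg (PM T.V) (E.ind (eW e) (eB e)) * J.avg (PM T.V) (E.ind (eW e') (eB e')) =
      E.eCov (Kinv T.V) (eW e) (eB e) (eW e') (eB e') := hcov
  rw [this]
  calc |1 * 1 * E.eCov (Kinv T.V) (eW e) (eB e) (eW e') (eB e') +
        1 * 1 * E.eCov (Kinv T.V) (eW e) (eB e) (eW e') (eB e')|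
      = 2 * |E.eCov (Kinv T.V) (eW e) (eB e) (eW e') (eB e')| := by
        rw [show 1 * 1 * E.eCov (Kinv T.V) (eW e) (eB e) (eW e') (eB e') +
          1 * 1 * E.eCov (Kinv T.V) (eW e) (eB e) (eW e') (eB e') =
          2 * E.eCov (Kinv T.V) (eW e) (eB e) (eW e') (eB e') by ring, abs_mul]
        norm_num
    _ ≤ 2 * B := by linarith

/-- **covariance of two heights near the boundary** -/
theorem cov_h (h1 : A_one) (h2 : A_two) {T : Temp} (hsub : Sub T T.V) (hne : ∃ y, y ∉ T.faceSet)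
    (x y : Pt) {B : ℝ} (hB0 : 0 ≤ B) (hB : ∀ e e' : Pt × Bool, dn x e.1 ≤ dF T.faceSet x →
      dn y e'.1 ≤ dF T.faceSet y → eW e ∈ T.V → eB e ∈ T.V → eW e' ∈ T.V → eB e' ∈ T.V →
      |E.eCov (Kinv T.V) (eW e) (eB e) (eW e') (eB e')| ≤ B) :
    |Ex T.V (fun ω => (h ω x : ℝ) * (h ω y : ℝ))| ≤
      (2 * dF T.faceSet x) * (2 * dF T.faceSet y) * (2 * B) := by
  obtain ⟨k, hk, e, s, a1, a2, a3⟩ := lin_boundary hne x
  obtain ⟨k', hk', e', s', b1, b2, b3⟩ := lin_boundary hne y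
  have eq : Ex T.V (fun ω => (h ω x : ℝ) * (h ω y : ℝ)) = ∑ i ∈ range k, ∑ j ∈ range k',
      s i * s' j * Ex T.V (fun ω => (E.ind (eW (e i)) (eB (e i)) ω.1 -
        E.ind (eW (e i)) (eB (e i)) ω.2) *
        (E.ind (eW (e' j)) (eB (e' j)) ω.1 - E.ind (eW (e' j)) (eB (e' j)) ω.2)) := by
    unfold Ex
    simp only [smul_eq_mul]
    have : ∑ ω ∈ DD T.V, (h ω x : ℝ) * (h ω y : ℝ) = ∑ i ∈ range k, ∑ j ∈ range k',
        s i * s' j * ∑ ω ∈ DD T.V, (E.ind (eW (e i)) (eB (e i)) ω.1 -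
        E.ind (eW (e i)) (eB (e i)) ω.2) *
        (E.ind (eW (e' j)) (eB (e' j)) ω.1 - E.ind (eW (e' j)) (eB (e' j)) ω.2) := by
      simp_rw [mul_sum]
      rw [sum_congr rfl (fun i _ => sum_comm), sum_comm]
      apply sum_congr rfl
      intro ω hω
      rw [a3 ω hω, b3 ω hω, sum_mul_sum]
      apply sum_congr rfl
      intro i _
      apply sum_congr rfl
      intro j _
      ring
    rw [this, mul_sum]
    apply sum_congr rfl
    intro i _
    rw [mul_sum]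
    apply sum_congr rfl
    intro j _
    ring
  rw [eq]
  have key : ∀ i ∈ range k, ∀ j ∈ range k', |s i * s' j * Ex T.V (fun ω =>
      (E.ind (eW (e i)) (eB (e i)) ω.1 - E.ind (eW (e i)) (eB (e i)) ω.2) *
        (E.ind (eW (e' j)) (eB (e' j)) ω.1 - E.ind (eW (e' j)) (eB (e' j)) ω.2))| ≤ 2 * B := by
    intro i hi j hj
    rw [abs_mul, abs_mul]
    have c1 := cov2 h1 h2 hsub (e i) (e' j) (B := B)
      (hB _ _ (a2 i (mem_range.1 hi)) (b2 j (mem_range.1 hj))) hB0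
    have c2 : |s i| * |s' j| ≤ 1 := by
      have := mul_le_mul (a1 i) (b1 j) (abs_nonneg _) zero_le_one
      linarith
    calc |s i| * |s' j| * |_| ≤ 1 * (2 * B) :=
          mul_le_mul c2 c1 (abs_nonneg _) zero_le_one
      _ = 2 * B := one_mul _
  calc |∑ i ∈ range k, ∑ j ∈ range k', _| ≤ ∑ i ∈ range k, ∑ j ∈ range k', 2 * B := by
        refine (abs_sum_le_sum_abs _ _).trans (sum_le_sum fun i hi => ?_)
        exact (abs_sum_le_sum_abs _ _).trans (sum_le_sum fun j hj => key i hi j hj)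
    _ = k * k' * (2 * B) := by
        simp only [sum_const, card_range, nsmul_eq_mul]
        ring
    _ ≤ _ := by
        have e1 : (k : ℝ) ≤ 2 * dF T.faceSet x := by exact_mod_cast hk
        have e2 : (k' : ℝ) ≤ 2 * dF T.faceSet y := by exact_mod_cast hk'
        gcongr

end Vale.Agent.P155.N924
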