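import Vale.Agent.P155.N924.Lin
import Vale.Agent.P155.HT426.Cov

/-!
# P155 (rough boundary), (N): the total mass of boundary boxes touched by loops is small in `L²`
-/

namespace Vale.Agent.P155.N924

open Vale.Agent.P155 Finset Skel H904

theorem abs_eCov_le {T : Temp} {e e' : Pt × Bool}
    (hK1 : ∀ w b, White w → Black b → w ∈ T.V → b ∈ T.V → |Kinv T.V b w| ≤ 1)
    (h1 : eW e ∈ T.V) (h2 : eB e ∈ T.V) (h3 : eW e' ∈ T.V) (h4 : eB e' ∈ T.V) :
    |E.eCov (Kinv T.V) (eW e) (eB e) (eW e') (eB e')| ≤ 2 := by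
  have k1 := hK1 _ _ (eW_white e) (eB_black e) h1 h2
  have k2 := hK1 _ _ (eW_white e') (eB_black e) h3 h2
  have k3 := hK1 _ _ (eW_white e) (eB_black e') h1 h4
  have a1 := abs_K_le (eW e) (eB e)
  have a2 := abs_K_le (eW e') (eB e')
  unfold E.eCov
  have p1 : |K (eW e) (eB e) * Kinv T.V (eB e) (eW e)| ≤ 1 := by
    rw [abs_mul]
    exact mul_le_one₀ a1 (abs_nonneg _) k1
  have p2 : |K (eW e) (eB e) * K (eW e') (eB e') * Kinv T.V (eB e) (eW e') *
      Kinv T.V (eB e') (eW e)| ≤ 1 := by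
    rw [abs_mul, abs_mul, abs_mul]
    exact mul_le_one₀ (mul_le_one₀ (mul_le_one₀ a1 (abs_nonneg _) a2) (abs_nonneg _) k2)
      (abs_nonneg _) k3
  have p1' : |(if eW e = eW e' ∧ eB e = eB e' then K (eW e) (eB e) * Kinv T.V (eB e) (eW e)
      else 0)| ≤ 1 := by
    split_ifs
    · exact p1
    · simp
  have := abs_sub (if eW e = eW e' ∧ eB e = eB e' then K (eW e) (eB e) * Kinv T.V (eB e) (eW e)
      else 0) (K (eW e) (eB e) * K (eW e') (eB e') * Kinv T.V (eB e) (eW e') *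
      Kinv T.V (eB e') (eW e))
  linarith

theorem abs_eCov_ne {T : Temp} {e e' : Pt × Bool} (hne : ¬ (eW e = eW e' ∧ eB e = eB e')) :
    |E.eCov (Kinv T.V) (eW e) (eB e) (eW e') (eB e')| ≤
      |Kinv T.V (eB e) (eW e')| * |Kinv T.V (eB e') (eW e)| := by
  have a1 := abs_K_le (eW e) (eB e)
  have a2 := abs_K_le (eW e') (eB e')
  unfold E.eCov
  rw [if_neg hne, zero_sub, abs_neg, abs_mul, abs_mul, abs_mul, mul_assoc (|_| * |_|)]
  exact mul_le_of_le_one_left (by positivity) (mul_le_one₀ a1 (abs_nonneg _) a2)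

open Classical in
/-- second moment of the masses enclosed by the loops -/
theorem sum_loops_sq {V : Finset Pt} (S : Finset Pt) (ν : Pt → ℝ) :
    Ex V (fun ω => ∑ᶠ L ∈ Loops ω, (∑ x ∈ S.filter (fun x => surr ω L x), ν x) ^ 2) =
      ∑ x ∈ S, ∑ y ∈ S, ν x * ν y * Ex V (fun ω => (h ω x : ℝ) * (h ω y : ℝ)) := by
  have e1 : ∀ ω ∈ DD V, ∑ᶠ L ∈ Loops ω, (∑ x ∈ S.filter (fun x => surr ω L x), ν x) ^ 2 =
      ∑ x ∈ S, ∑ y ∈ S, ν x * ν y *
        (Set.ncard {A | A ∈ Loops ω ∧ surr ω A x ∧ surr ω A y} : ℝ) := by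
    intro ω hω
    have hfin := L.loops_finite hω
    have hc : ∀ x y, (Set.ncard {A | A ∈ Loops ω ∧ surr ω A x ∧ surr ω A y} : ℝ) =
        ∑ A ∈ hfin.toFinset, if surr ω A x ∧ surr ω A y then (1 : ℝ) else 0 := by
      intro x y
      rw [← sum_filter, sum_const, nsmul_eq_mul, mul_one]
      congr 1
      rw [← Set.ncard_coe_finset]
      congr 1
      ext A
      simp
    rw [finsum_mem_eq_finite_toFinset_sum _ hfin]
    simp_rw [hc, mul_sum]
    rw [sum_congr rfl (fun x _ => sum_comm), sum_comm]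
    apply sum_congr rfl
    intro A _
    rw [sq, sum_filter, sum_mul_sum]
    apply sum_congr rfl
    intro x _
    apply sum_congr rfl
    intro y _
    by_cases hx : surr ω A x <;> by_cases hy : surr ω A y <;> simp [hx, hy]
  have e2 : Ex V (fun ω => ∑ᶠ L ∈ Loops ω, (∑ x ∈ S.filter (fun x => surr ω L x), ν x) ^ 2) =
      Ex V (fun ω => ∑ x ∈ S, ∑ y ∈ S, ν x * ν y *
        (Set.ncard {A | A ∈ Loops ω ∧ surr ω A x ∧ surr ω A y} : ℝ)) := by
    unfold Ex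
    congr 1
    exact sum_congr rfl e1
  rw [e2]
  have e3 : ∀ x y, Ex V (fun ω => (h ω x : ℝ) * (h ω y : ℝ)) = Ex V (fun ω =>
      (Set.ncard {A | A ∈ Loops ω ∧ surr ω A x ∧ surr ω A y} : ℝ)) := fun x y => HT.Ex_hh V x y
  simp_rw [e3]
  unfold Ex
  simp only [smul_eq_mul]
  rw [mul_sum]
  simp_rw [mul_sum]
  rw [sum_comm]
  apply sum_congr rfl
  intro x _
  rw [sum_comm]
  apply sum_congr rfl
  intro y _
  apply sum_congr rfl
  intro ω _
  ring

open Classical in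
/-- **(N), general form.** -/
theorem near_gen (h1 : A_one) (h2 : A_two) (hp : B_plane) (hd : B_dom) {β Cd : ℝ}
    (hdec : G45.SupDecay Cd β) (hβ : 0 < β) (hCd : 0 ≤ Cd) :
    ∃ M : ℝ, 0 ≤ M ∧ ∀ (T : Temp) (S : Finset Pt) (ν : Pt → ℝ) (s L d ρ : ℕ) (m mloc : ℝ),
      (KM T.V).det ≠ 0 → Sub T T.V → (∀ x ∈ S, 0 ≤ ν x) → (∀ x ∈ S, dF T.faceSet x ≤ s) →
      ∑ x ∈ S, ν x ≤ m → (∀ x ∈ S, ∑ y ∈ S.filter (fun y => dn x y ≤ ρ), ν y ≤ mloc) →
      0 ≤ mloc → 2 * (2 * s + 2) + 1 ≤ L → (2 * s + 2) + 2 * L ≤ d → 6 * d + 22 + 2 * s ≤ ρ →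
      Ex T.V (fun ω => ∑ᶠ L ∈ Loops ω, (∑ x ∈ S.filter (fun x => surr ω L x), ν x) ^ 2) ≤
        M * (s : ℝ) ^ 2 * (m * mloc +
          m ^ 2 * ((3 * ((2 * s : ℕ) + 2 : ℝ) / ((L : ℝ) + 1)) ^ β * (2 + Real.log L))) := by
  obtain ⟨C, hC, hK⟩ := kbounds hp hd
  refine ⟨16 + 8 * (480 * Cd * C ^ 2), by positivity, ?_⟩
  intro T S ν s L d ρ m mloc hdet hsub hν hs hm hloc hml hL hd' hρ
  obtain ⟨-, hKF, hK1⟩ := hK T
  have g := tgeo hdet
  have hne := faceSet_ne T g.fin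
  set G : ℝ := (3 * ((2 * s : ℕ) + 2 : ℝ) / ((L : ℝ) + 1)) ^ β * (2 + Real.log L) with hG
  have hlog : 0 ≤ Real.log L := Real.log_nonneg (by exact_mod_cast (by omega : 1 ≤ L))
  have hG0 : 0 ≤ G := by positivity
  have hm0 : 0 ≤ m := (sum_nonneg hν).trans hm
  rw [sum_loops_sq]
  -- covariance bounds
  have near : ∀ x ∈ S, ∀ y ∈ S, Ex T.V (fun ω => (h ω x : ℝ) * (h ω y : ℝ)) ≤
      16 * (s : ℝ) ^ 2 := by
    intro x hx y hy
    refine (le_abs_self _).trans ((cov_h h1 h2 hsub hne x y (B := 2) (by norm_num)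
      (fun e e' _ _ a1 a2 a3 a4 => abs_eCov_le hK1 a1 a2 a3 a4)).trans ?_)
    have e1 : (dF T.faceSet x : ℝ) ≤ s := by exact_mod_cast hs x hx
    have e2 : (dF T.faceSet y : ℝ) ≤ s := by exact_mod_cast hs y hy
    calc (2 * (dF T.faceSet x : ℝ)) * (2 * dF T.faceSet y) * (2 * 2)
        ≤ (2 * s) * (2 * s) * (2 * 2) := by gcongr
      _ = 16 * (s : ℝ) ^ 2 := by ring
  have far : ∀ x ∈ S, ∀ y ∈ S, ρ < dn x y → Ex T.V (fun ω => (h ω x : ℝ) * (h ω y : ℝ)) ≤
      8 * (s : ℝ) ^ 2 * (480 * Cd * C ^ 2 * G) := by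
    intro x hx y hy hxy
    have hsx := hs x hx
    have hsy := hs y hy
    refine (le_abs_self _).trans ((cov_h h1 h2 hsub hne x y (B := 480 * Cd * C ^ 2 * G)
      (by positivity) ?_).trans ?_)
    · intro e e' d1 d2 a1 a2 a3 a4
      have t1 := dn_tri x e.1 y
      have t2 := dn_tri e.1 e'.1 y
      rw [dn_comm e'.1 y] at t2
      have hfar : 6 * d + 22 ≤ dn e.1 e'.1 := by omega
      have hneq : ¬ (eW e = eW e' ∧ eB e = eB e') := by
        rintro ⟨q1, q2⟩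
        have := e_inj q1 q2
        rw [this, dn_self] at hfar
        omega
      refine (abs_eCov_ne hneq).trans ?_
      have u1 := dF_lip hne e.1 x
      have u2 := dF_lip hne e'.1 y
      rw [dn_comm e.1 x] at u1
      rw [dn_comm e'.1 y] at u2
      have key := two_factors_far g hC hKF hdec hβ hCd a1 a2 a3 a4 (r := 2 * s) (L := L) (d := d)
        (by omega) (by omega) hL hd' hfar
      refine key.trans ?_
      rw [← hG]
      have hle : (1 : ℝ) / ((1 + (dF T.faceSet e.1 : ℝ)) * (1 + (dF T.faceSet e'.1 : ℝ))) ≤ 1 := by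
        rw [div_le_one (by positivity)]
        have : (0 : ℝ) ≤ dF T.faceSet e.1 := by positivity
        have : (0 : ℝ) ≤ dF T.faceSet e'.1 := by positivity
        nlinarith
      exact mul_le_of_le_one_right (by positivity) hle
    · have e1 : (dF T.faceSet x : ℝ) ≤ s := by exact_mod_cast hs x hx
      have e2 : (dF T.faceSet y : ℝ) ≤ s := by exact_mod_cast hs y hy
      calc (2 * (dF T.faceSet x : ℝ)) * (2 * dF T.faceSet y) * (2 * (480 * Cd * C ^ 2 * G))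
          ≤ (2 * s) * (2 * s) * (2 * (480 * Cd * C ^ 2 * G)) := by gcongr
        _ = _ := by ring
  have hpt : ∀ x ∈ S, ∀ y ∈ S, ν x * ν y * Ex T.V (fun ω => (h ω x : ℝ) * (h ω y : ℝ)) ≤
      (if dn x y ≤ ρ then ν x * ν y * (16 * (s : ℝ) ^ 2) else 0) +
      ν x * ν y * (8 * (s : ℝ) ^ 2 * (480 * Cd * C ^ 2 * G)) := by
    intro x hx y hy
    have hxy : 0 ≤ ν x * ν y := mul_nonneg (hν x hx) (hν y hy)
    split_ifs with hc
    · have := mul_le_mul_of_nonneg_left (near x hx y hy) hxy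
      have h0 : 0 ≤ ν x * ν y * (8 * (s : ℝ) ^ 2 * (480 * Cd * C ^ 2 * G)) := by positivity
      linarith
    · have := mul_le_mul_of_nonneg_left (far x hx y hy (by omega)) hxy
      linarith
  calc ∑ x ∈ S, ∑ y ∈ S, ν x * ν y * Ex T.V (fun ω => (h ω x : ℝ) * (h ω y : ℝ))
      ≤ ∑ x ∈ S, ∑ y ∈ S, ((if dn x y ≤ ρ then ν x * ν y * (16 * (s : ℝ) ^ 2) else 0) +
        ν x * ν y * (8 * (s : ℝ) ^ 2 * (480 * Cd * C ^ 2 * G))) :=
        sum_le_sum fun x hx => sum_le_sum fun y hy => hpt x hx y hy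
    _ = 16 * (s : ℝ) ^ 2 * ∑ x ∈ S, ν x * ∑ y ∈ S.filter (fun y => dn x y ≤ ρ), ν y +
        8 * (s : ℝ) ^ 2 * (480 * Cd * C ^ 2 * G) * (∑ x ∈ S, ν x) ^ 2 := by
        simp_rw [sum_add_distrib]
        congr 1
        · rw [mul_sum]
          apply sum_congr rfl
          intro x _
          rw [sum_filter, mul_sum, mul_sum]
          apply sum_congr rfl
          intro y _
          split_ifs <;> ring
        · rw [sq (∑ x ∈ S, ν x), sum_mul_sum, mul_sum]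
          apply sum_congr rfl
          intro x _
          rw [mul_sum]
          apply sum_congr rfl
          intro y _
          ring
    _ ≤ 16 * (s : ℝ) ^ 2 * (m * mloc) + 8 * (s : ℝ) ^ 2 * (480 * Cd * C ^ 2 * G) * m ^ 2 := by
        have hS0 : 0 ≤ ∑ x ∈ S, ν x := sum_nonneg hν
        have e1 : ∑ x ∈ S, ν x * ∑ y ∈ S.filter (fun y => dn x y ≤ ρ), ν y ≤ m * mloc := by
          calc ∑ x ∈ S, ν x * ∑ y ∈ S.filter (fun y => dn x y ≤ ρ), ν y
              ≤ ∑ x ∈ S, ν x * mloc :=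
                sum_le_sum fun x hx => mul_le_mul_of_nonneg_left (hloc x hx) (hν x hx)
            _ = (∑ x ∈ S, ν x) * mloc := by rw [sum_mul]
            _ ≤ m * mloc := mul_le_mul_of_nonneg_right hm hml
        gcongr
    _ ≤ _ := by
        have e1 : 0 ≤ (s : ℝ) ^ 2 * (m * mloc) := by positivity
        have e2 : 0 ≤ (s : ℝ) ^ 2 * (m ^ 2 * G) := by positivity
        have e3 : 0 ≤ 480 * Cd * C ^ 2 := by positivity
        nlinarith [mul_nonneg e1 e3]

end Vale.Agent.P155.N924
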