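import Vale.Agent.P155.N924.Flux

/-!
# P155, NT: energy on rings, logarithmic tent, final form of the flux bound
-/

namespace Vale.Agent.P155.NT

open Vale.Agent.P155 Finset H904

/-! ## Harmonic sums -/

theorem harm_ge {a b : ℕ} (ha : 1 ≤ a) (hab : a ≤ b) :
    Real.log b - Real.log a ≤ ∑ k ∈ Ico a b, (1 : ℝ) / k := by
  induction b, hab using Nat.le_induction with
  | base => simp
  | succ n hn ih =>
    rw [Finset.sum_Ico_succ_top hn]
    have hn0 : (0 : ℝ) < n := by exact_mod_cast (by omega : 0 < n)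
    have h1 : Real.log ((n + 1 : ℕ) : ℝ) - Real.log n ≤ 1 / n := by
      rw [← Real.log_div (by positivity) hn0.ne']
      refine (Real.log_le_sub_one_of_pos (by positivity)).trans (le_of_eq ?_)
      push_cast
      field_simp
      ring
    linarith

theorem harm_le {a b : ℕ} (ha : 1 ≤ a) (hab : a ≤ b) :
    ∑ k ∈ Ico (a + 1) (b + 1), (1 : ℝ) / k ≤ Real.log b - Real.log a := by
  induction b, hab using Nat.le_induction with
  | base => simp
  | succ n hn ih =>
    rw [Finset.sum_Ico_succ_top (by omega)]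
    have hn0 : (0 : ℝ) < n := by exact_mod_cast (by omega : 0 < n)
    have h1 : 1 / ((n + 1 : ℕ) : ℝ) ≤ Real.log ((n + 1 : ℕ) : ℝ) - Real.log n := by
      have h2 : Real.log (n / ((n + 1 : ℕ) : ℝ)) ≤ n / ((n + 1 : ℕ) : ℝ) - 1 :=
        Real.log_le_sub_one_of_pos (by positivity)
      rw [Real.log_div hn0.ne' (by positivity)] at h2
      have h3 : (n : ℝ) / ((n + 1 : ℕ) : ℝ) - 1 = - (1 / ((n + 1 : ℕ) : ℝ)) := by
        push_cast
        field_simp
        ring
      linarith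
    linarith

theorem harm_nonneg (a b : ℕ) : 0 ≤ ∑ k ∈ Ico a b, (1 : ℝ) / k :=
  sum_nonneg fun _ _ => by positivity

/-! ## The tent -/

/-- logarithmic tent -/
noncomputable def tent (Λ : ℝ) (a b s : ℕ) : ℝ :=
  min 1 (min ((∑ k ∈ Ico a s, (1 : ℝ) / k) / Λ) ((∑ k ∈ Ico s b, (1 : ℝ) / k) / Λ))

theorem tent_nonneg {Λ : ℝ} (hΛ : 0 < Λ) (a b s : ℕ) : 0 ≤ tent Λ a b s := by
  unfold tent
  have h1 := harm_nonneg a s
  have h2 := harm_nonneg s b
  refine le_min zero_le_one (le_min ?_ ?_) <;> positivity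

theorem tent_le_one (Λ : ℝ) (a b s : ℕ) : tent Λ a b s ≤ 1 := min_le_left _ _

theorem tent_zero_left {Λ : ℝ} (hΛ : 0 < Λ) {a b s : ℕ} (h : s ≤ a) : tent Λ a b s = 0 := by
  unfold tent
  rw [Finset.Ico_eq_empty_of_le h, sum_empty, zero_div]
  have h2 := harm_nonneg s b
  rw [min_eq_left (show (0 : ℝ) ≤ _ / Λ by positivity), min_eq_right zero_le_one]

theorem tent_zero_right {Λ : ℝ} (hΛ : 0 < Λ) {a b s : ℕ} (h : b ≤ s) : tent Λ a b s = 0 := by
  unfold tent
  rw [Finset.Ico_eq_empty_of_le h, sum_empty, zero_div]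
  have h2 := harm_nonneg a s
  rw [min_eq_right (show (0 : ℝ) ≤ _ / Λ by positivity), min_eq_right zero_le_one]

theorem tent_step {Λ : ℝ} (hΛ : 0 < Λ) (a b s : ℕ) :
    |tent Λ a b (s + 1) - tent Λ a b s| ≤ (if a ≤ s ∧ s < b then 1 / (Λ * s) else 0) := by
  by_cases h1 : a ≤ s
  · by_cases h2 : s < b
    · rw [if_pos ⟨h1, h2⟩]
      unfold tent
      have e1 : (∑ k ∈ Ico a (s + 1), (1 : ℝ) / k) = (∑ k ∈ Ico a s, (1 : ℝ) / k) + 1 / s :=
        Finset.sum_Ico_succ_top h1 _
      have e2 : (∑ k ∈ Ico s b, (1 : ℝ) / k) = 1 / s + (∑ k ∈ Ico (s + 1) b, (1 : ℝ) / k) :=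
        Finset.sum_eq_sum_Ico_succ_bot h2 _
      rw [e1, e2]
      set A := ∑ k ∈ Ico a s, (1 : ℝ) / k
      set B := ∑ k ∈ Ico (s + 1) b, (1 : ℝ) / k
      have e3 : (A + 1 / s) / Λ = A / Λ + 1 / (Λ * s) := by
        rw [add_div, div_div, mul_comm (s : ℝ) Λ]
      have e4 : (1 / s + B) / Λ = B / Λ + 1 / (Λ * s) := by
        rw [add_div, div_div, mul_comm (s : ℝ) Λ, add_comm]
      rw [e3, e4]
      have hd : 0 ≤ 1 / (Λ * s) := by positivity
      set D := 1 / (Λ * (s : ℝ))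
      rw [abs_le]
      constructor
      · have : min 1 (min (A / Λ) (B / Λ + D)) ≤ min 1 (min (A / Λ + D) (B / Λ)) + D := by
          rcases min_cases (1 : ℝ) (min (A / Λ + D) (B / Λ)) with ⟨h, _⟩ | ⟨h, _⟩
          · rw [h]
            exact (min_le_left _ _).trans (by linarith)
          · rw [h]
            rcases min_cases (A / Λ + D) (B / Λ) with ⟨h, _⟩ | ⟨h, _⟩ <;> rw [h]
            · exact (min_le_right _ _).trans ((min_le_left _ _).trans (by linarith))
            · exact (min_le_right _ _).trans ((min_le_right _ _).trans (by linarith))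
        linarith
      · have : min 1 (min (A / Λ + D) (B / Λ)) ≤ min 1 (min (A / Λ) (B / Λ + D)) + D := by
          rcases min_cases (1 : ℝ) (min (A / Λ) (B / Λ + D)) with ⟨h, _⟩ | ⟨h, _⟩
          · rw [h]
            exact (min_le_left _ _).trans (by linarith)
          · rw [h]
            rcases min_cases (A / Λ) (B / Λ + D) with ⟨h, _⟩ | ⟨h, _⟩ <;> rw [h]
            · exact (min_le_right _ _).trans ((min_le_left _ _).trans (by linarith))
            · exact (min_le_right _ _).trans ((min_le_right _ _).trans (by linarith))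
        linarith
    · rw [if_neg (fun h => h2 h.2), tent_zero_right hΛ (by omega), tent_zero_right hΛ (by omega)]
      simp
  · rw [if_neg (fun h => h1 h.1), tent_zero_left hΛ (by omega), tent_zero_left hΛ (by omega)]
    simp

theorem tent_one {Λ : ℝ} (hΛ : 0 < Λ) {a b s : ℕ} (h1 : Λ ≤ ∑ k ∈ Ico a s, (1 : ℝ) / k)
    (h2 : Λ ≤ ∑ k ∈ Ico s b, (1 : ℝ) / k) : tent Λ a b s = 1 := by
  unfold tent
  apply min_eq_left
  refine le_min ?_ ?_ <;> rw [le_div_iff₀ hΛ, one_mul] <;> assumption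

/-! ## Rings -/

theorem mem_box_dn {x y : Pt} {r : ℕ} : y ∈ box x r ↔ dn x y ≤ r := by
  unfold box
  rw [mem_product, mem_Icc, mem_Icc, dn_le_iff, abs_le, abs_le]
  constructor <;> intro h <;> refine ⟨⟨?_, ?_⟩, ?_, ?_⟩ <;> omega

theorem card_box (z : Pt) (r : ℕ) : (box z r).card = (2 * r + 1) ^ 2 := by
  unfold box
  rw [card_product, Int.card_Icc, Int.card_Icc]
  have e1 : (z.1 + r + 1 - (z.1 - r)).toNat = 2 * r + 1 := by omega
  have e2 : (z.2 + r + 1 - (z.2 - r)).toNat = 2 * r + 1 := by omega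
  rw [e1, e2]
  ring

/-- the faces at distance `s` -/
noncomputable def ring' (z : Pt) (s : ℕ) : Finset Pt := (box z s).filter (fun x => dn z x = s)

theorem mem_ring' {z x : Pt} {s : ℕ} : x ∈ ring' z s ↔ dn z x = s := by
  unfold ring'
  rw [mem_filter, mem_box_dn]
  constructor
  · exact fun h => h.2
  · exact fun h => ⟨h.le, h⟩

theorem card_ring' (z : Pt) {s : ℕ} (hs : 1 ≤ s) : (ring' z s).card = 8 * s := by
  have e : ring' z s = box z s \ box z (s - 1) := by
    ext x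
    rw [mem_ring', mem_sdiff, mem_box_dn, mem_box_dn]
    omega
  have hsub : box z (s - 1) ⊆ box z s := fun x hx => by
    rw [mem_box_dn] at *
    omega
  rw [e, card_sdiff_of_subset hsub, card_box, card_box]
  obtain ⟨t, rfl⟩ := Nat.exists_eq_add_of_le hs
  rw [show 1 + t - 1 = t by omega]
  have : (2 * (1 + t) + 1) ^ 2 = (2 * t + 1) ^ 2 + 8 * (1 + t) := by ring
  omega

theorem dn_nbr {z x y : Pt} (h : y ∈ nbrs x) : dn z y ≤ dn z x + 1 := by
  have h1 := dn_tri z x y
  have h2 : dn x y ≤ 1 := by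
    rw [mem_nbrs] at h
    unfold Adj at h
    rw [dn_le_iff]
    have a1 := abs_nonneg (y.1 - x.1)
    have a2 := abs_nonneg (y.2 - x.2)
    rw [abs_sub_comm] at a1 a2
    constructor
    · have := abs_sub_comm y.1 x.1
      push_cast
      omega
    · have := abs_sub_comm y.2 x.2
      push_cast
      omega
  omega

/-- energy of the tent -/
theorem tent_energy {Λ : ℝ} (hΛ : 0 < Λ) (z : Pt) {a b : ℕ} (ha : 1 ≤ a) (hab : a ≤ b)
    (U : Finset Pt) :
    eS U (fun x y => (tent Λ a b (dn z y) - tent Λ a b (dn z x)) ^ 2) ≤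
      128 / Λ ^ 2 * (1 + (Real.log b - Real.log a)) := by
  classical
  set F : Pt → Pt → ℝ := fun x y => (tent Λ a b (dn z y) - tent Λ a b (dn z x)) ^ 2 with hF
  have hF0 : ∀ x y, 0 ≤ F x y := fun x y => sq_nonneg _
  have hFb : ∀ x, ∀ y ∈ nbrs x, F x y ≤
      (if a ≤ dn z x ∧ dn z x ≤ b then 4 / (Λ ^ 2 * (dn z x : ℝ) ^ 2) else 0) := by
    intro x y hy
    have h1 := dn_nbr (z := z) hy
    have h2 := dn_nbr (z := z) (nbrs_comm.1 hy)
    have key : ∀ s, |tent Λ a b (s + 1) - tent Λ a b s| ^ 2 ≤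
        (if a ≤ s ∧ s < b then 1 / (Λ * s) else 0) ^ 2 := fun s =>
      pow_le_pow_left₀ (abs_nonneg _) (tent_step hΛ a b s) 2
    rcases lt_trichotomy (dn z y) (dn z x) with h | h | h
    · have e : dn z x = dn z y + 1 := by omega
      have := key (dn z y)
      rw [sq_abs] at this
      simp only [hF]
      rw [e]
      have e2 : (tent Λ a b (dn z y) - tent Λ a b (dn z y + 1)) ^ 2 =
          (tent Λ a b (dn z y + 1) - tent Λ a b (dn z y)) ^ 2 := by ring
      rw [e2]
      refine this.trans ?_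
      by_cases hc : a ≤ dn z y ∧ dn z y < b
      · rw [if_pos hc, if_pos ⟨by omega, by omega⟩]
        have hy1 : (1 : ℝ) ≤ dn z y := by exact_mod_cast (by omega : 1 ≤ dn z y)
        rw [div_pow, one_pow, mul_pow]
        rw [div_le_div_iff₀ (by positivity) (by positivity)]
        push_cast
        have : ((dn z y : ℝ) + 1) ^ 2 ≤ 4 * (dn z y : ℝ) ^ 2 := by nlinarith
        nlinarith [sq_nonneg Λ, mul_le_mul_of_nonneg_left this (sq_nonneg Λ)]
      · rw [if_neg hc, zero_pow two_ne_zero]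
        split_ifs <;> positivity
    · simp only [hF]
      rw [h, sub_self, zero_pow two_ne_zero]
      split_ifs <;> positivity
    · have e : dn z y = dn z x + 1 := by omega
      have := key (dn z x)
      rw [sq_abs] at this
      simp only [hF]
      rw [e]
      refine this.trans ?_
      by_cases hc : a ≤ dn z x ∧ dn z x < b
      · rw [if_pos hc, if_pos ⟨by omega, by omega⟩]
        have hy1 : (1 : ℝ) ≤ dn z x := by exact_mod_cast (by omega : 1 ≤ dn z x)
        rw [div_pow, one_pow, mul_pow]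
        gcongr
        norm_num
      · rw [if_neg hc, zero_pow two_ne_zero]
        split_ifs <;> positivity
  have h1 : eS U F ≤ ∑ x ∈ U, ∑ y ∈ nbrs x, F x y := by
    unfold eS
    have e : ∑ x ∈ U, ∑ y ∈ nbrs x, F x y =
        ∑ x ∈ U, ∑ y ∈ (nbrs x).filter (fun y => y ∈ U), F x y +
        ∑ x ∈ U, ∑ y ∈ (nbrs x).filter (fun y => y ∉ U), F x y := by
      rw [← sum_add_distrib]
      apply sum_congr rfl
      intro x _
      rw [sum_filter_add_sum_filter_not]
    have h2 : 0 ≤ ∑ x ∈ U, ∑ y ∈ (nbrs x).filter (fun y => y ∈ U), F x y :=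
      sum_nonneg fun x _ => sum_nonneg fun y _ => hF0 x y
    rw [e]
    linarith
  have hcard : ∀ x : Pt, ((nbrs x).card : ℝ) ≤ 4 := by
    intro x
    have : (nbrs x).card ≤ 4 := by
      unfold nbrs
      exact card_le_four
    exact_mod_cast this
  have h2 : ∑ x ∈ U, ∑ y ∈ nbrs x, F x y ≤
      ∑ x ∈ U, (if a ≤ dn z x ∧ dn z x ≤ b then 16 / (Λ ^ 2 * (dn z x : ℝ) ^ 2) else 0) := by
    apply sum_le_sum
    intro x _
    refine (sum_le_sum (fun y hy => hFb x y hy)).trans ?_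
    rw [sum_const, nsmul_eq_mul]
    split_ifs with hc
    · have h3 : 0 ≤ 4 / (Λ ^ 2 * (dn z x : ℝ) ^ 2) := by positivity
      calc ((nbrs x).card : ℝ) * (4 / (Λ ^ 2 * (dn z x : ℝ) ^ 2))
          ≤ 4 * (4 / (Λ ^ 2 * (dn z x : ℝ) ^ 2)) := mul_le_mul_of_nonneg_right (hcard x) h3
        _ = 16 / (Λ ^ 2 * (dn z x : ℝ) ^ 2) := by ring
    · simp
  have h3 : ∑ x ∈ U, (if a ≤ dn z x ∧ dn z x ≤ b then 16 / (Λ ^ 2 * (dn z x : ℝ) ^ 2) else 0) ≤
      ∑ s ∈ Icc a b, ∑ x ∈ ring' z s, 16 / (Λ ^ 2 * (s : ℝ) ^ 2) := by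
    rw [← sum_filter]
    have e : ∀ x ∈ U.filter (fun x => a ≤ dn z x ∧ dn z x ≤ b), dn z x ∈ Icc a b := by
      intro x hx
      rw [mem_filter] at hx
      exact mem_Icc.2 hx.2
    rw [← sum_fiberwise_of_maps_to e]
    apply sum_le_sum
    intro s hs
    have : ∑ x ∈ (U.filter (fun x => a ≤ dn z x ∧ dn z x ≤ b)).filter (fun x => dn z x = s),
        16 / (Λ ^ 2 * (dn z x : ℝ) ^ 2) =
        ∑ x ∈ (U.filter (fun x => a ≤ dn z x ∧ dn z x ≤ b)).filter (fun x => dn z x = s),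
        16 / (Λ ^ 2 * (s : ℝ) ^ 2) := by
      apply sum_congr rfl
      intro x hx
      rw [(mem_filter.1 hx).2]
    rw [this]
    apply sum_le_sum_of_subset_of_nonneg
    · intro x hx
      rw [mem_ring']
      exact (mem_filter.1 hx).2
    · intros; positivity
  have h4 : ∑ s ∈ Icc a b, ∑ x ∈ ring' z s, 16 / (Λ ^ 2 * (s : ℝ) ^ 2) =
      128 / Λ ^ 2 * ∑ s ∈ Icc a b, (1 : ℝ) / s := by
    rw [mul_sum]
    apply sum_congr rfl
    intro s hs
    have hs1 : 1 ≤ s := by have := (mem_Icc.1 hs).1; omega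
    have hs0 : (0 : ℝ) < s := by exact_mod_cast hs1
    rw [sum_const, card_ring' z hs1, nsmul_eq_mul]
    push_cast
    field_simp
    ring
  have h5 : ∑ s ∈ Icc a b, (1 : ℝ) / s ≤ 1 + (Real.log b - Real.log a) := by
    have e : Icc a b = Ico a (b + 1) := by
      ext s; rw [mem_Icc, mem_Ico]; omega
    rw [e, Finset.sum_eq_sum_Ico_succ_bot (by omega)]
    have h6 : (1 : ℝ) / a ≤ 1 := by
      rw [div_le_one (by exact_mod_cast (by omega : 0 < a))]
      exact_mod_cast ha
    have := harm_le ha hab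
    linarith
  calc eS U F ≤ _ := h1.trans (h2.trans h3)
    _ = 128 / Λ ^ 2 * ∑ s ∈ Icc a b, (1 : ℝ) / s := h4
    _ ≤ _ := by gcongr

end Vale.Agent.P155.NT
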